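import Mathlib

namespace Vale.Agent.N200

open MvPolynomial Module CategoryTheory

universe u

variable {K : Type u} [Field K] {n c : ℕ}

/-- `I_d`, the forms of degree `d` in `I`. -/
noncomputable def part (I : Ideal (MvPolynomial (Fin n) K)) (d : ℕ) :
    Submodule K (MvPolynomial (Fin n) K) :=
  I.restrictScalars K ⊓ homogeneousSubmodule (Fin n) K d

/-- `J = ⨁_d J_d` of the problem: `J_d` is spanned by `P_d` and the `dim I_d - dim P_d`
lexicographically greatest monomials of degree `d` outside `P = (x_1 ^ a_1, …, x_c ^ a_c)`;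
`B d` is the set of exponents of the monomials of degree `d` outside `P`. -/
noncomputable def lexPP (h : c ≤ n) (a : Fin c → ℕ) (I : Ideal (MvPolynomial (Fin n) K)) :
    Submodule K (MvPolynomial (Fin n) K) :=
  let P : Ideal (MvPolynomial (Fin n) K) := Ideal.span (Set.range fun i => X (Fin.castLE h i) ^ a i)
  let B : ℕ → Set (Fin n →₀ ℕ) := fun d => {e | (∀ i, e (Fin.castLE h i) < a i) ∧ ∑ i, e i = d}
  ⨆ d, part P d ⊔ Submodule.span K ((fun e => monomial e (1 : K)) ''
    {e | e ∈ B d ∧ {e' | e' ∈ B d ∧ toLex (e : Fin n → ℕ) < toLex (e' : Fin n → ℕ)}.ncard <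
      finrank K (part I d) - finrank K (part P d)})

/-- `⋯ → F_2 → F_1 → F_0 → S / I → 0` is a minimal graded free resolution of `S / I`, where
`F_p = S ^ (r p)` has its `i`-th basis element in degree `δ p i`, the map `F_(p+1) → F_p` is the
matrix `A p`, and the basis elements of `F_0` have degree `0` and are sent to `1`.
The complex is exact; the entry `(i, k)` of `A p` is a form of degree `δ (p+1) k - δ p i` (graded)
and is zero unless this degree is positive (minimal). -/
def IsMinRes (I : Ideal (MvPolynomial (Fin n) K)) (r : ℕ → ℕ) (δ : ∀ p, Fin (r p) → ℕ)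
    (A : ∀ p, Matrix (Fin (r p)) (Fin (r (p + 1))) (MvPolynomial (Fin n) K)) : Prop :=
  (∀ i, δ 0 i = 0) ∧
  Function.Surjective (fun v : Fin (r 0) → MvPolynomial (Fin n) K =>
    Ideal.Quotient.mk I (∑ i, v i)) ∧
  Function.Exact (A 0).mulVec (fun v => Ideal.Quotient.mk I (∑ i, v i)) ∧
  (∀ p, Function.Exact (A (p + 1)).mulVec (A p).mulVec) ∧
  ∀ p i k, A p i k = 0 ∨
    δ p i < δ (p + 1) k ∧ (A p i k).IsHomogeneous (δ (p + 1) k - δ p i)

/-- `dim_K Tor_p^S(S / I, K)`, with the functor `Tor'` of Mathlib and `K = S / (x_1, …, x_n)`. -/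
noncomputable def torDim (I : Ideal (MvPolynomial (Fin n) K)) (p : ℕ) : ℕ :=
  finrank K (RestrictScalars K (MvPolynomial (Fin n) K)
    (((Tor' (ModuleCat (MvPolynomial (Fin n) K)) p).obj
      (ModuleCat.of _ (MvPolynomial (Fin n) K ⧸ I))).obj
      (ModuleCat.of _ (MvPolynomial (Fin n) K ⧸
        Ideal.span (Set.range (X : Fin n → MvPolynomial (Fin n) K))))))

/-- `I` has a minimal generator of degree `e`: a form of degree `e` in `I` outside
`(x_1, …, x_n) I`. -/
def HasGen (I : Ideal (MvPolynomial (Fin n) K)) (e : ℕ) : Prop :=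
  ∃ g ∈ I, g.IsHomogeneous e ∧ g ∉ Ideal.span (Set.range X) * I

end Vale.Agent.N200
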