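import Vale.Agent.N200.Res

set_option linter.all false

namespace Vale.Agent.N200

open MvPolynomial Module Vale.Agent.P200F Vale.Agent.P200F.B Vale.Agent.P200F.G
  Vale.Agent.P200F.L

variable {K : Type*} [Field K] {n r : ℕ}

theorem sum_pjv (δ : Fin r → ℕ) (v : Fin r → MvPolynomial (Fin n) K) :
    ∃ N, v = ∑ j ∈ Finset.range N, pjv δ j 0 v := by
  classical
  refine ⟨1 + ∑ i, ((v i).totalDegree + δ i), ?_⟩
  funext i
  ext m
  rw [Finset.sum_apply, coeff_sum]
  unfold pjv
  simp only [coeff_pjc]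
  rw [Finset.sum_ite_eq]
  split_ifs with h
  · rfl
  · by_contra h1
    apply h
    have h2 := le_totalDegree (MvPolynomial.mem_support_iff.2 h1)
    rw [Finsupp.sum_fintype _ _ (fun _ => rfl)] at h2
    have h3 := Finset.single_le_sum (f := fun i => (v i).totalDegree + δ i)
      (fun _ _ => Nat.zero_le _) (Finset.mem_univ i)
    rw [Finset.mem_range]
    omega

/-- a graded submodule of `m F` -/
structure St (K : Type*) [Field K] (n : ℕ) where
  r : ℕ
  δ : Fin r → ℕ
  U : Submodule (MvPolynomial (Fin n) K) (Fin r → MvPolynomial (Fin n) K)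
  gr : ∀ v ∈ U, ∀ j, pjv δ j 0 v ∈ U
  mn : ∀ v ∈ U, ∀ i, coeff 0 (v i) = 0

/-- homogeneous generators -/
def Gens (s : St K n) (r' : ℕ) : Prop :=
  ∃ (δ' : Fin r' → ℕ) (u : Fin r' → Fin s.r → MvPolynomial (Fin n) K),
    (∀ k, u k ∈ Wf K n s.δ (δ' k) 0) ∧
      Submodule.span (MvPolynomial (Fin n) K) (Set.range u) = s.U

theorem exists_gens (s : St K n) : ∃ r', Gens s r' := by
  classical
  have h1 : Submodule.span (MvPolynomial (Fin n) K) {v | v ∈ s.U ∧ ∃ j, v ∈ Wf K n s.δ j 0} =
      s.U := by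
    apply le_antisymm
    · rw [Submodule.span_le]
      exact fun v hv => hv.1
    · intro v hv
      obtain ⟨N, hN⟩ := sum_pjv s.δ v
      rw [hN]
      exact Submodule.sum_mem _ fun j _ =>
        Submodule.subset_span ⟨s.gr v hv j, j, pjv_mem _ _ _ _⟩
  have h2 : (Submodule.span (MvPolynomial (Fin n) K)
      {v | v ∈ s.U ∧ ∃ j, v ∈ Wf K n s.δ j 0}).FG := IsNoetherian.noetherian _
  obtain ⟨T, hT, hT2⟩ := (Submodule.fg_span_iff_fg_span_finset_subset _).1 h2
  choose d hd using fun v : T => (hT v.2).2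
  refine ⟨T.card, fun k => d (T.equivFin.symm k), fun k => (T.equivFin.symm k).1,
    fun k => hd _, ?_⟩
  rw [← h1, hT2]
  congr 1
  ext v
  constructor
  · rintro ⟨k, rfl⟩
    exact (T.equivFin.symm k).2
  · intro hv
    exact ⟨T.equivFin ⟨v, hv⟩, by simp⟩

theorem exists_step (s : St K n) : ∃ (t : St K n)
    (A : Matrix (Fin s.r) (Fin t.r) (MvPolynomial (Fin n) K)), MinMat s.δ t.δ A ∧
      LinearMap.range A.mulVecLin = s.U ∧ LinearMap.ker A.mulVecLin = t.U := by
  classical
  obtain ⟨r', ⟨δ', u, hu, hsp⟩, hmin⟩ : ∃ r', Gens s r' ∧ ∀ r'' < r', ¬ Gens s r'' :=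
    ⟨Nat.find (exists_gens s), Nat.find_spec (exists_gens s), fun _ h => Nat.find_min _ h⟩
  set A : Matrix (Fin s.r) (Fin r') (MvPolynomial (Fin n) K) := Matrix.of fun i k => u k i with hA
  have huU : ∀ k, u k ∈ s.U := fun k => hsp ▸ Submodule.subset_span ⟨k, rfl⟩
  have hM : MinMat s.δ δ' A := by
    intro i k
    by_cases h0 : u k i = 0
    · exact Or.inl h0
    · refine Or.inr ⟨?_, hom_iff.2 fun m hm => ?_⟩
      · obtain ⟨m, hm⟩ := ne_zero_iff.1 h0
        have h1 := hu k i m hm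
        have h2 : ∑ j, m j ≠ 0 := by
          intro h3
          have h4 : m = 0 := Finsupp.ext fun j =>
            Finset.sum_eq_zero_iff.1 h3 j (Finset.mem_univ j)
          rw [h4] at hm
          exact hm (s.mn _ (huU k) i)
        omega
      · have h1 := hu k i m hm
        omega
  have hmv : ∀ c : Fin r' → MvPolynomial (Fin n) K, A.mulVec c = ∑ k, c k • u k := by
    intro c
    funext i
    rw [Matrix.mulVec, dotProduct, Finset.sum_apply]
    refine Finset.sum_congr rfl fun k _ => ?_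
    rw [Pi.smul_apply, smul_eq_mul, mul_comm]
    rfl
  have hgr : ∀ v ∈ LinearMap.ker A.mulVecLin, ∀ j, pjv δ' j 0 v ∈ LinearMap.ker A.mulVecLin := by
    intro v hv j
    have h1 : A.mulVec v = 0 := hv
    change A.mulVec _ = 0
    rw [mulVec_pjv hM.le, h1]
    exact pjv_self (Submodule.zero_mem _)
  refine ⟨⟨r', δ', LinearMap.ker A.mulVecLin, hgr, fun c hc k0 => ?_⟩, A, hM, ?_, rfl⟩
  · by_contra ha
    have h1 : A.mulVec (pjv δ' (δ' k0) 0 c) = 0 := hgr c hc (δ' k0)
    have h2 : pjv δ' (δ' k0) 0 c k0 = C (coeff 0 (c k0)) := by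
      ext m
      unfold pjv
      rw [coeff_pjc, coeff_C]
      by_cases h3 : 0 = m
      · rw [if_pos h3, ← h3, if_pos (by simp)]
      · rw [if_neg h3, if_neg]
        intro h4
        apply h3
        have h5 : ∑ j, m j = 0 := by omega
        exact (Finsupp.ext fun j => Finset.sum_eq_zero_iff.1 h5 j (Finset.mem_univ j)).symm
    rw [hmv] at h1
    generalize pjv δ' (δ' k0) 0 c = c' at h1 h2
    generalize coeff 0 (c k0) = a at ha h2
    clear hc hgr hmv hM hA A c
    obtain ⟨r'', rfl⟩ : ∃ r'', r' = r'' + 1 := ⟨r' - 1, by have := k0.2; omega⟩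
    refine hmin r'' (Nat.lt_succ_self _) ⟨fun k => δ' (k0.succAbove k),
      fun k => u (k0.succAbove k), fun k => hu _, ?_⟩
    rw [← hsp]
    apply le_antisymm
    · refine Submodule.span_mono ?_
      rintro _ ⟨k, rfl⟩
      exact ⟨_, rfl⟩
    · rw [Submodule.span_le]
      rintro _ ⟨k, rfl⟩
      rcases eq_or_ne k k0 with rfl | hk
      · rw [Fin.sum_univ_succAbove _ k, h2, add_eq_zero_iff_eq_neg] at h1
        have h3 : u k = (C a⁻¹ : MvPolynomial (Fin n) K) • ((C a : MvPolynomial (Fin n) K) • u k) := by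
          rw [smul_smul, ← C_mul, inv_mul_cancel₀ ha, C_1, one_smul]
        rw [h3, h1]
        refine Submodule.smul_mem _ _ (Submodule.neg_mem _ (Submodule.sum_mem _ fun l _ => ?_))
        exact Submodule.smul_mem _ _ (Submodule.subset_span ⟨l, rfl⟩)
      · obtain ⟨l, rfl⟩ := Fin.exists_succAbove_eq hk
        exact Submodule.subset_span ⟨l, rfl⟩
  · exact (Matrix.range_mulVecLin A).trans hsp

/-- the sum of the entries -/
noncomputable def sumL (K : Type*) [Field K] (n r : ℕ) :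
    (Fin r → MvPolynomial (Fin n) K) →ₗ[MvPolynomial (Fin n) K] MvPolynomial (Fin n) K :=
  ∑ i, LinearMap.proj i

theorem sumL_apply (v : Fin r → MvPolynomial (Fin n) K) : sumL K n r v = ∑ i, v i := by
  unfold sumL
  rw [LinearMap.sum_apply]
  rfl

theorem exists_start {I : Ideal (MvPolynomial (Fin n) K)} (hI : HomIdeal I) :
    ∃ s : St K n, (∀ i, s.δ i = 0) ∧ (∀ v, v ∈ s.U ↔ ∑ i, v i ∈ I) ∧
      Function.Surjective fun v : Fin s.r → MvPolynomial (Fin n) K =>
        Ideal.Quotient.mk I (∑ i, v i) := by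
  have hgr : ∀ r, ∀ v ∈ Submodule.comap (sumL K n r) I, ∀ j,
      pjv (fun _ => 0) j 0 v ∈ Submodule.comap (sumL K n r) I := by
    intro r v hv j
    rw [Submodule.mem_comap, sumL_apply] at hv ⊢
    have h1 := pjc_mem hI (0 + 0) j hv
    rw [pjc_sum] at h1
    exact h1
  by_cases h : I = ⊤
  · refine ⟨⟨0, fun _ => 0, Submodule.comap (sumL K n 0) I, hgr 0, fun _ _ i => i.elim0⟩,
      fun _ => rfl, fun v => ?_, fun y => ⟨0, ?_⟩⟩
    · rw [← sumL_apply]
      rfl
    · obtain ⟨y, rfl⟩ := Ideal.Quotient.mk_surjective y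
      exact Ideal.Quotient.eq.2 ((Submodule.eq_top_iff'.1 h) _)
  · refine ⟨⟨1, fun _ => 0, Submodule.comap (sumL K n 1) I, hgr 1, fun v hv i => ?_⟩,
      fun _ => rfl, fun v => ?_, fun y => ?_⟩
    · rw [Submodule.mem_comap, sumL_apply, Fin.sum_univ_one] at hv
      rw [Subsingleton.elim i 0]
      by_contra h1
      apply h
      have h2 := hI _ hv 0
      rw [homogeneousComponent_zero] at h2
      exact I.eq_top_of_isUnit_mem h2 ((isUnit_iff_ne_zero.2 h1).map C)
    · rw [← sumL_apply]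
      rfl
    · obtain ⟨y, rfl⟩ := Ideal.Quotient.mk_surjective y
      exact ⟨fun _ => y, by simp⟩

/-- **minimal graded free resolutions exist** -/
theorem exists_minRes {I : Ideal (MvPolynomial (Fin n) K)} (hI : HomIdeal I) :
    ∃ r δ A, IsMinRes I r δ A := by
  obtain ⟨s0, h0, h1, h2⟩ := exists_start hI
  choose next mat hm hr hk using exists_step (K := K) (n := n)
  let st : ℕ → St K n := fun p => Nat.rec s0 (fun _ s => next s) p
  refine ⟨fun p => (st p).r, fun p => (st p).δ, fun p => mat (st p), h0, h2, fun v => ?_,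
    fun p v => ?_, fun p => hm (st p)⟩
  · have h3 : v ∈ s0.U ↔ v ∈ LinearMap.range (mat s0).mulVecLin := by rw [hr]
    exact (Ideal.Quotient.eq_zero_iff_mem.trans (h1 v).symm).trans h3
  · have h3 : v ∈ LinearMap.ker (mat (st p)).mulVecLin ↔
        v ∈ LinearMap.range (mat (next (st p))).mulVecLin := by rw [hr, hk]
    exact h3

end Vale.Agent.N200
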