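import Vale.Agent.N200.Res

set_option linter.all false

namespace Vale.Agent.N200

open MvPolynomial Module Vale.Agent.P200F Vale.Agent.P200F.B Vale.Agent.P200F.G
  Vale.Agent.P200F.L

section poly

variable {K : Type*} [Field K] {σ : Type*}

/-- a polynomial family of vectors -/
def IsPoly {E : Type*} [AddCommGroup E] [Module K E] (v : (σ → K) → E) : Prop :=
  ∀ φ : E →ₗ[K] K, ∃ P : MvPolynomial σ K, ∀ x, φ (v x) = eval x P

theorem IsPoly.map {E E' : Type*} [AddCommGroup E] [Module K E] [AddCommGroup E'] [Module K E']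
    {v : (σ → K) → E} (hv : IsPoly v) (L : E →ₗ[K] E') : IsPoly fun x => L (v x) :=
  fun φ => hv (φ ∘ₗ L)

theorem IsPoly.congr {E : Type*} [AddCommGroup E] [Module K E] {v w : (σ → K) → E}
    (hv : IsPoly v) (h : ∀ x, v x = w x) : IsPoly w := by
  rw [← funext h]
  exact hv

theorem isPoly_eval {E : Type*} [CommRing E] [Algebra K E] (Q : MvPolynomial σ E) :
    IsPoly fun x : σ → K => eval (fun i => algebraMap K E (x i)) Q := by
  intro φ
  refine ⟨∑ m ∈ Q.support, monomial m (φ (coeff m Q)), fun x => ?_⟩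
  dsimp only
  rw [eval_eq, map_sum, map_sum]
  refine Finset.sum_congr rfl fun m _ => ?_
  have h1 : ∏ i ∈ m.support, algebraMap K E (x i) ^ m i =
      algebraMap K E (∏ i ∈ m.support, x i ^ m i) := by
    rw [map_prod]
    exact Finset.prod_congr rfl fun i _ => (map_pow _ _ _).symm
  rw [eval_monomial, h1, mul_comm, ← Algebra.smul_def, map_smul, smul_eq_mul, mul_comm]
  rfl

/-- linear independence is an open condition -/
theorem indep_open {E ι : Type*} [AddCommGroup E] [Module K E] [Fintype ι]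
    (v : ι → (σ → K) → E) (hv : ∀ i, IsPoly (v i)) (x0 : σ → K)
    (h0 : LinearIndependent K fun i => v i x0) :
    ∃ Φ : MvPolynomial σ K, eval x0 Φ ≠ 0 ∧
      ∀ x, eval x Φ ≠ 0 → LinearIndependent K fun i => v i x := by
  classical
  obtain ⟨g, hg⟩ := LinearMap.exists_leftInverse_of_injective
    (Fintype.linearCombination K fun i => v i x0)
    (LinearMap.ker_eq_bot.2 (linearIndependent_iff_injective_fintypeLinearCombination.1 h0))
  choose P hP using fun i k => hv i (LinearMap.proj k ∘ₗ g)
  have hdet : ∀ x, eval x (Matrix.of P).det = (Matrix.of fun i k => g (v i x) k).det := by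
    intro x
    rw [RingHom.map_det]
    congr 1
    ext i k
    exact (hP i k x).symm
  refine ⟨(Matrix.of P).det, ?_, fun x hx => ?_⟩
  · rw [hdet]
    have h1 : (Matrix.of fun i k => g (v i x0) k) = 1 := by
      ext i k
      have h2 := LinearMap.congr_fun hg (Pi.single i 1)
      rw [LinearMap.comp_apply, Fintype.linearCombination_apply_single, one_smul] at h2
      rw [Matrix.of_apply, h2, LinearMap.id_apply, Matrix.one_apply, Pi.single_apply]
      simp only [eq_comm]
    rw [h1, Matrix.det_one]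
    exact one_ne_zero
  · rw [hdet] at hx
    exact LinearIndependent.of_comp g (Matrix.linearIndependent_rows_of_det_ne_zero hx)

theorem card_le_finrank {E ι : Type*} [AddCommGroup E] [Module K E] [Fintype ι]
    {v : ι → E} (hv : LinearIndependent K v) (W : Submodule K E) [Module.Finite K W]
    (hW : ∀ i, v i ∈ W) : Fintype.card ι ≤ finrank K W := by
  rw [← finrank_span_eq_card hv]
  refine Submodule.finrank_mono (Submodule.span_le.2 ?_)
  rintro _ ⟨i, rfl⟩
  exact hW i

theorem exists_lifts {E E' : Type*} [AddCommGroup E] [Module K E] [AddCommGroup E'] [Module K E']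
    (L : E →ₗ[K] E') (V : Submodule K E) [Module.Finite K V] :
    ∃ H : Fin (finrank K (V.map L)) → E, (∀ i, H i ∈ V) ∧
      LinearIndependent K fun i => L (H i) := by
  set b := Module.finBasis K (V.map L)
  choose H hH hH' using fun i => Submodule.mem_map.1 (b i).2
  refine ⟨H, hH, ?_⟩
  have h1 : (fun i => L (H i)) = (V.map L).subtype ∘ b := funext hH'
  rw [h1]
  exact b.linearIndependent.map' _ (Submodule.ker_subtype _)

/-- the rank is lower semicontinuous -/
theorem rank_open {E E' : Type*} [AddCommGroup E] [Module K E] [AddCommGroup E'] [Module K E']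
    (L : (σ → K) → E →ₗ[K] E') (hL : ∀ e, IsPoly fun x => L x e) (V : Submodule K E)
    [Module.Finite K V] (x0 : σ → K) :
    ∃ Φ : MvPolynomial σ K, eval x0 Φ ≠ 0 ∧
      ∀ x, eval x Φ ≠ 0 → finrank K (V.map (L x0)) ≤ finrank K (V.map (L x)) := by
  obtain ⟨H, hH, hH'⟩ := exists_lifts (L x0) V
  obtain ⟨Φ, h1, h2⟩ := indep_open (fun i x => L x (H i)) (fun i => hL _) x0 hH'
  refine ⟨Φ, h1, fun x hx => ?_⟩
  have h3 := card_le_finrank (h2 x hx) (V.map (L x)) fun i => ⟨H i, hH i, rfl⟩
  rwa [Fintype.card_fin] at h3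

/-- the rank is maximal on an open set -/
theorem rank_max {E E' : Type*} [AddCommGroup E] [Module K E] [AddCommGroup E'] [Module K E']
    (L : (σ → K) → E →ₗ[K] E') (hL : ∀ e, IsPoly fun x => L x e) (V : Submodule K E)
    [Module.Finite K V] :
    ∃ Φ : MvPolynomial σ K, Φ ≠ 0 ∧
      ∀ x, eval x Φ ≠ 0 → ∀ y, finrank K (V.map (L y)) ≤ finrank K (V.map (L x)) := by
  have hb : BddAbove (Set.range fun x => finrank K (V.map (L x))) :=
    ⟨finrank K V, by
      rintro _ ⟨x, rfl⟩
      exact Submodule.finrank_map_le _ _⟩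
  obtain ⟨x0, hx0⟩ := Nat.sSup_mem (Set.range_nonempty fun x => finrank K (V.map (L x))) hb
  obtain ⟨Φ, h1, h2⟩ := rank_open L hL V x0
  refine ⟨Φ, fun h => h1 (by rw [h, map_zero]), fun x hx y => le_trans ?_ (h2 x hx)⟩
  dsimp only at hx0
  rw [hx0]
  exact le_csSup hb ⟨y, rfl⟩

end poly

variable {K : Type*} [Field K] {n c : ℕ}

/-- truncation -/
noncomputable def trc (K : Type*) [Field K] (n k : ℕ) :
    Polynomial (MvPolynomial (Fin n) K) →ₗ[K] (Fin k → MvPolynomial (Fin n) K) :=
  LinearMap.pi fun i : Fin k => cfL K n i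

theorem trc_apply (k : ℕ) (F : Polynomial (MvPolynomial (Fin n) K)) (i : Fin k) :
    trc K n k F i = F.coeff i := rfl

/-- the change of coordinates -/
noncomputable def chg (cc : Fin n → K) :
    MvPolynomial (Fin (n + 1)) K →ₗ[K] Polynomial (MvPolynomial (Fin n) K) :=
  (gen_phi cc).toLinearMap.restrictScalars K ∘ₗ (eE K n).toLinearMap

theorem chg_apply (cc : Fin n → K) (F : MvPolynomial (Fin (n + 1)) K) :
    chg cc F = gen_phi cc (eE K n F) := rfl

theorem gen_phi_eq (cc : Fin n → K) (F : Polynomial (MvPolynomial (Fin n) K)) :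
    gen_phi cc F = Polynomial.taylor (∑ j, C (cc j) * X j) F := by
  rw [Polynomial.taylor_apply, Polynomial.comp_eq_aeval]
  rfl

theorem eval_map_C {σ B : Type*} [CommRing B] (y : σ → Polynomial B) (G : Polynomial B)
    (w : MvPolynomial σ (Polynomial B)) :
    eval y ((G.map ((C : Polynomial B →+* MvPolynomial σ (Polynomial B)).comp Polynomial.C)).eval w)
      = G.comp (eval y w) := by
  rw [Polynomial.eval_map, Polynomial.hom_eval₂, Polynomial.comp]
  congr 1
  ext b
  simp

theorem alg_eq (k : K) : algebraMap K (Polynomial (MvPolynomial (Fin n) K)) k =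
    Polynomial.C (C k) := rfl

theorem isPoly_chg (F : MvPolynomial (Fin (n + 1)) K) : IsPoly fun cc : Fin n → K => chg cc F := by
  have h1 := isPoly_eval (K := K) (((eE K n F).map ((C : Polynomial (MvPolynomial (Fin n) K) →+*
    MvPolynomial (Fin n) (Polynomial (MvPolynomial (Fin n) K))).comp Polynomial.C)).eval
    (C Polynomial.X + ∑ j, X j * C (Polynomial.C (X j))))
  refine IsPoly.congr h1 fun cc => ?_
  rw [eval_map_C, chg_apply, gen_phi_eq, Polynomial.taylor_apply]
  congr 1
  simp [alg_eq]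

/-- in characteristic zero the layers for a linear form of maximal rank are stable -/
theorem stable_of_max [CharZero K] (V : Submodule K (MvPolynomial (Fin (n + 1)) K))
    [Module.Finite K V] (cc : Fin n → K) (k : ℕ)
    (hmax : ∀ y, finrank K (V.map (trc K n (k + 1) ∘ₗ chg y)) ≤
      finrank K (V.map (trc K n (k + 1) ∘ₗ chg cc))) (j : Fin n) :
    ∀ b ∈ lay (V.map (chg cc)) (k + 1), X j * b ∈ lay (V.map (chg cc)) k := by
  classical
  rintro _ ⟨_, ⟨G0, hG0, rfl⟩, hlow, rfl⟩
  by_contra hcon
  set G := chg cc G0 with hG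
  obtain ⟨H, hH, hH'⟩ := exists_lifts (trc K n (k + 1) ∘ₗ chg cc) V
  have hch : ∀ (t : K) (F : MvPolynomial (Fin (n + 1)) K), chg (cc + Pi.single j t) F =
      (chg cc F).comp (Polynomial.X + Polynomial.C (C t) * Polynomial.C (X j)) := by
    intro t F
    rw [chg_apply, chg_apply, gen_phi_eq, gen_phi_eq, ← Polynomial.C_mul,
      ← Polynomial.taylor_apply, Polynomial.taylor_taylor]
    congr 2
    simp only [Pi.add_apply, map_add, add_mul, Finset.sum_add_distrib]
    rw [add_comm, Finset.sum_eq_single j, Pi.single_eq_same]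
    · intro l _ hl
      rw [Pi.single_eq_of_ne hl, map_zero, zero_mul]
    · intro h
      exact absurd (Finset.mem_univ j) h
  set ι : MvPolynomial (Fin n) K →+* MvPolynomial Unit (Polynomial (MvPolynomial (Fin n) K)) :=
    (C : Polynomial (MvPolynomial (Fin n) K) →+* _).comp Polynomial.C with hι
  obtain ⟨κ, hκ⟩ := Polynomial.binomExpansion (G.map ι)
    (C (Polynomial.X : Polynomial (MvPolynomial (Fin n) K)))
    (X () * C (Polynomial.C (X j : MvPolynomial (Fin n) K)))
  set Q : MvPolynomial Unit (Polynomial (MvPolynomial (Fin n) K)) :=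
    C (Polynomial.derivative G * Polynomial.C (X j)) +
      κ * X () * C (Polynomial.C (X j)) ^ 2 with hQ
  have hev : ∀ t : Unit → K, chg (cc + Pi.single j (t ())) G0 =
      G + t () • eval (fun i => algebraMap K _ (t i)) Q := by
    intro t
    have h1 := congrArg (eval fun i => algebraMap K (Polynomial (MvPolynomial (Fin n) K)) (t i)) hκ
    rw [Polynomial.derivative_map, map_add, map_add, map_mul, eval_map_C, eval_map_C,
      eval_map_C] at h1
    simp only [map_add, map_mul, map_pow, eval_C, eval_X, Polynomial.comp_X] at h1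
    rw [hch, ← alg_eq, h1, hQ, Algebra.smul_def]
    simp only [map_add, map_mul, map_pow, eval_C, eval_X]
    ring
  have hT0 : trc K n (k + 1) G = 0 := funext fun i => hlow i i.2
  let v : Option (Fin (finrank K (V.map (trc K n (k + 1) ∘ₗ chg cc)))) → (Unit → K) → _ :=
    fun o t => o.elim (trc K n (k + 1) (eval (fun i => algebraMap K _ (t i)) Q))
      fun i => trc K n (k + 1) (chg (cc + Pi.single j (t ())) (H i))
  have hv : ∀ o, IsPoly (v o) := by
    rintro (_ | i)
    · exact (isPoly_eval Q).map _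
    · have h1 := isPoly_eval (K := K) (((chg cc (H i)).map ι).eval
        (C Polynomial.X + X () * C (Polynomial.C (X j))))
      have h2 := h1.map (trc K n (k + 1))
      refine IsPoly.congr h2 fun t => ?_
      rw [eval_map_C]
      change _ = trc K n (k + 1) _
      rw [hch]
      simp [alg_eq]
  have h0 : LinearIndependent K fun o => v o 0 := by
    rw [linearIndependent_option]
    have e1 : ((fun o => v o 0) ∘ some) = fun i => (trc K n (k + 1) ∘ₗ chg cc) (H i) := by
      funext i
      change trc K n (k + 1) (chg (cc + Pi.single j 0) (H i)) = _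
      rw [Pi.single_zero, add_zero]
      rfl
    rw [e1]
    refine ⟨hH', fun hmem => hcon ?_⟩
    have h1 : v none 0 ∈ V.map (trc K n (k + 1) ∘ₗ chg cc) := by
      refine Submodule.span_le.2 ?_ hmem
      rintro _ ⟨i, rfl⟩
      exact ⟨H i, hH i, rfl⟩
    obtain ⟨F, hF, hF'⟩ := h1
    have h2 : v none 0 = trc K n (k + 1) (Polynomial.derivative G * Polynomial.C (X j)) := by
      change trc K n (k + 1) _ = _
      rw [hQ]
      simp
    have h3 : ∀ i : ℕ, i < k + 1 → (chg cc F).coeff i =
        G.coeff (i + 1) * ((i : MvPolynomial (Fin n) K) + 1) * X j := by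
      intro i hi
      have h4 := congrFun (hF'.trans h2) ⟨i, hi⟩
      rw [trc_apply, Polynomial.coeff_mul_C, Polynomial.coeff_derivative] at h4
      exact h4
    have hk : ((k : K) + 1) ≠ 0 := by exact_mod_cast Nat.succ_ne_zero k
    refine ⟨((k : K) + 1)⁻¹ • chg cc F, Submodule.smul_mem _ _ ⟨F, hF, rfl⟩, fun i hi => ?_, ?_⟩
    · rw [Polynomial.coeff_smul, h3 i (by omega), hlow (i + 1) (by omega), zero_mul, zero_mul,
        smul_zero]
    · have h5 : ((k : MvPolynomial (Fin n) K) + 1) = C ((k : K) + 1) := by simp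
      rw [Polynomial.coeff_smul, h3 k (by omega), h5, smul_eq_C_mul, mul_comm (G.coeff (k + 1)),
        ← mul_assoc, ← mul_assoc, ← C_mul, inv_mul_cancel₀ hk, C_1, one_mul, mul_comm]
  obtain ⟨Φ, h1, h2⟩ := indep_open v hv 0 h0
  obtain ⟨t, ht⟩ : ∃ t : Unit → K, eval t (Φ * X ()) ≠ 0 := by
    by_contra h3
    push Not at h3
    have h4 : Φ * X () = 0 := MvPolynomial.funext fun t => by rw [h3, map_zero]
    rcases mul_eq_zero.1 h4 with h5 | h5
    · exact h1 (by rw [h5, map_zero])
    · exact X_ne_zero _ h5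
  rw [map_mul, eval_X, mul_ne_zero_iff] at ht
  have h3 := card_le_finrank (h2 t ht.1) (V.map (trc K n (k + 1) ∘ₗ chg (cc + Pi.single j (t ()))))
    (by
      rintro (_ | i)
      · refine ⟨(t ())⁻¹ • G0, V.smul_mem _ hG0, ?_⟩
        rw [map_smul, LinearMap.comp_apply, hev, map_add, hT0, zero_add, map_smul, smul_smul,
          inv_mul_cancel₀ ht.2, one_smul]
        rfl
      · exact ⟨H i, hH i, rfl⟩)
  have h4 := hmax (cc + Pi.single j (t ()))
  rw [Fintype.card_option, Fintype.card_fin] at h3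
  omega

/-- the sequence stays regular on a hyperplane which contains no component -/
theorem rho_regular [Infinite K] (h : c ≤ n) (a : Fin c → ℕ) (hpos : ∀ i, 1 ≤ a i)
    (f : Fin c → MvPolynomial (Fin (n + 1)) K) (hf : ∀ i, (f i).IsHomogeneous (a i))
    (hreg : IsRegularSeq f) (cc : Fin n → K)
    (hl2 : ∀ q ∈ (Ideal.span (Set.range f)).minimalPrimes, gen_l cc ∉ q) :
    IsRegularSeq fun i => rho cc (f i) := by
  classical
  have hreg' : IsRegSeq f := hreg
  set J : Ideal (MvPolynomial (Fin (n + 1)) K) := Ideal.span (Set.range f) with hJ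
  have hl : (gen_l cc).IsHomogeneous 1 :=
    (isHomogeneous_X K _).sub ((gen_lin_isHomogeneous cc).rename_isHomogeneous)
  generalize hlq : gen_l cc = l at hl2 hl
  have hcc : gen_l cc ∣ l := hlq ▸ dvd_rfl
  -- complete to an m-primary ideal
  set s : Set (MvPolynomial (Fin (n + 1)) K) := insert l (Set.range f) with hs
  have hsfin : s.Finite := (Set.finite_range f).insert l
  have hscard : s.ncard ≤ c + 1 := (Set.ncard_insert_le _ _).trans (add_le_add (ncard_range_le f) le_rfl)
  have hsh : ∀ p : Ideal (MvPolynomial (Fin (n + 1)) K), p.IsPrime → Ideal.span s ≤ p →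
      ((c + 1 : ℕ) : ℕ∞) ≤ p.height := by
    intro p hp hle
    have hJp : J ≤ p := (Ideal.span_mono (Set.subset_insert _ _)).trans hle
    have hlp : l ∈ p := hle (Ideal.subset_span (Set.mem_insert _ _))
    obtain ⟨q, hq, hqp⟩ := Ideal.exists_minimalPrimes_le hJp
    have hqprime : q.IsPrime := hq.1.1
    have hlt : q < p := by
      refine lt_of_le_of_ne hqp ?_
      rintro rfl
      exact hl2 q hq hlp
    have h1 := le_height_of_isRegSeq f hreg' q hq.1.2
    have h2 := Ideal.height_add_one_le_of_lt_of_isPrime hlt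
    push_cast
    exact le_trans (add_le_add h1 le_rfl) h2
  obtain ⟨l', hl', hh⟩ := gen_extend s hsfin hscard hsh (n - c) (by omega)
  -- the whole sequence
  set F : Fin (n + 1) → MvPolynomial (Fin (n + 1)) K := fun i =>
    if hi : i.1 < c then f ⟨i.1, hi⟩ else if hi2 : i.1 = c then l else
      l' ⟨i.1 - c - 1, by omega⟩ with hF
  set A : Fin (n + 1) → ℕ := fun i => if hi : i.1 < c then a ⟨i.1, hi⟩ else 1 with hA
  have hApos : ∀ i, 1 ≤ A i := by
    intro i
    rw [hA]
    dsimp only
    split_ifs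
    · exact hpos _
    · exact le_rfl
  have hFhom : ∀ i, (F i).IsHomogeneous (A i) := by
    intro i
    rw [hF, hA]
    dsimp only
    split_ifs
    · exact hf _
    · exact hl
    · exact hl' _
  have hrange : Set.range F = s ∪ Set.range l' := by
    ext x
    constructor
    · rintro ⟨i, rfl⟩
      rw [hF]
      dsimp only
      split_ifs
      · exact Or.inl (Set.mem_insert_of_mem _ ⟨_, rfl⟩)
      · exact Or.inl (Set.mem_insert _ _)
      · exact Or.inr ⟨_, rfl⟩
    · rintro ((rfl | ⟨i, rfl⟩) | ⟨i, rfl⟩)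
      · refine ⟨⟨c, by omega⟩, ?_⟩
        rw [hF]
        dsimp only
        rw [dif_neg (lt_irrefl _), dif_pos rfl]
      · refine ⟨⟨i.1, by omega⟩, ?_⟩
        rw [hF]
        dsimp only
        rw [dif_pos i.2]
      · refine ⟨⟨c + 1 + i.1, by omega⟩, ?_⟩
        rw [hF]
        dsimp only
        rw [dif_neg (by omega), dif_neg (by omega)]
        congr 1
        apply Fin.ext
        change c + 1 + i.1 - c - 1 = i.1
        omega
  have hmp : IsMPrimary (Ideal.span (Set.range F)) := by
    apply isMPrimary_of_height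
    · apply homIdeal_span
      rintro g ⟨i, rfl⟩
      exact ⟨A i, hFhom i⟩
    · intro p hp hle
      rw [hrange] at hle
      have h1 := hh p hp hle
      rwa [show c + 1 + (n - c) = n + 1 by omega] at h1
  set k : Fin (n + 1) := ⟨c, by omega⟩ with hk
  have hFk : gen_l cc ∣ F k := by
    have h1 : F k = l := by
      rw [hF]
      dsimp only
      rw [dif_neg (lt_irrefl _), dif_pos rfl]
    rw [h1]
    exact hcc
  have h3 := (gen_rho_eliminates cc).isMPrimary k F hmp hFk
  have h4 : IsRegularSeq fun i => rho cc (F (k.succAbove i)) :=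
    isRegSeq_of_isMPrimary (fun i => A (k.succAbove i)) (fun i => hApos _) _
      (fun i => rho_isHomogeneous cc (hFhom _)) h3
  have h5 := regular_castLE h4 h
  have h6 : (fun i : Fin c => rho cc (F (k.succAbove (Fin.castLE h i)))) =
      fun i => rho cc (f i) := by
    funext i
    have h7 : k.succAbove (Fin.castLE h i) = ⟨i.1, by omega⟩ := by
      rw [Fin.succAbove_of_castSucc_lt]
      · rfl
      · exact i.2
    rw [h7, hF]
    dsimp only
    rw [dif_pos i.2]
  rw [h6] at h5
  exact h5


theorem chg_lay (cc : Fin n → K) (a : Fin c → ℕ)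
    (f : Fin c → MvPolynomial (Fin (n + 1)) K) (hf : ∀ i, (f i).IsHomogeneous (a i)) (D : ℕ)
    (V : Submodule K (MvPolynomial (Fin (n + 1)) K))
    (hV1 : piece (Ideal.span (Set.range f)) D ≤ V)
    (hV2 : V ≤ homogeneousSubmodule (Fin (n + 1)) K D) :
    Lay (Ideal.span (Set.range fun i => rho cc (f i))) D (lay (V.map (chg cc))) ∧
      tot (lay (V.map (chg cc))) D = finrank K V := by
  classical
  have hG2 : V.map (chg cc) ≤ Gd K n D := by
    rintro _ ⟨F, hF, rfl⟩
    refine gen_phi_mem_Gd cc ?_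
    rw [← map_eE_homogeneous]
    exact ⟨F, hV2 hF, rfl⟩
  refine ⟨⟨fun i => lay_le hG2 i, ?_⟩, ?_⟩
  · intro i hi
    apply piece_span_le
    rintro _ ⟨k, rfl⟩ w
    have hr : (rho cc (f k)).IsHomogeneous (a k) := rho_isHomogeneous cc (hf k)
    by_cases hk : a k ≤ D - i
    · obtain ⟨t, ht⟩ := Nat.exists_eq_add_of_le' hk
      have h1 := comp_mul_add hr w t
      rw [ht, mul_comm w, h1]
      set b := homogeneousComponent t w with hb
      have hbh : b.IsHomogeneous t := homogeneousComponent_isHomogeneous _ _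
      -- the element
      set H : Polynomial (MvPolynomial (Fin n) K) := Polynomial.C b * Polynomial.X ^ i with hH
      have hHG : H ∈ Gd K n (t + i) := gen_Gd_mul (gen_C_mem_Gd hbh) (gen_pow_mem_Gd gen_X_mem_Gd i)
      have hHG' := gen_phi_symm_mem_Gd cc hHG
      rw [← map_eE_homogeneous] at hHG'
      obtain ⟨g, hg, hgH⟩ := hHG'
      have hg2 : eE K n g = (gen_phi cc).symm H := hgH
      have hmem : f k * g ∈ V := by
        apply hV1
        refine ⟨Ideal.mul_mem_right _ _ (Ideal.subset_span ⟨k, rfl⟩), ?_⟩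
        have h2 : (f k * g).IsHomogeneous (a k + (t + i)) := (hf k).mul hg
        rwa [show a k + (t + i) = D by omega] at h2
      have hval : gen_phi cc (eE K n (f k * g)) = gen_phi cc (eE K n (f k)) * Polynomial.C b *
          Polynomial.X ^ i := by
        rw [map_mul, map_mul, hg2, AlgEquiv.apply_symm_apply, hH, mul_assoc]
      refine ⟨gen_phi cc (eE K n (f k * g)), ⟨_, hmem, rfl⟩, ?_, ?_⟩
      · intro j hj
        rw [hval, Polynomial.coeff_mul_X_pow', if_neg (by omega)]
      · rw [hval, Polynomial.coeff_mul_X_pow', if_pos le_rfl, Nat.sub_self, Polynomial.mul_coeff_zero,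
          gen_coeff_zero, Polynomial.coeff_C_zero]
    · rw [mul_comm, comp_mul_of_lt hr w (by omega)]
      exact Submodule.zero_mem _
  · rw [← finrank_eq_tot_lay _ hG2]
    exact LinearEquiv.finrank_map_eq
      ((eE K n).toLinearEquiv.trans ((gen_phi cc).toLinearEquiv.restrictScalars K)) V

theorem lay_zero (cc : Fin n → K) (V : Submodule K (MvPolynomial (Fin (n + 1)) K)) :
    lay (V.map (chg cc)) 0 = V.map (rho cc).toLinearMap := by
  apply le_antisymm
  · rintro _ ⟨_, ⟨F, hF, rfl⟩, -, rfl⟩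
    exact ⟨F, hF, (gen_coeff_zero cc F).symm⟩
  · rintro _ ⟨F, hF, rfl⟩
    exact ⟨_, ⟨F, hF, rfl⟩, fun j hj => absurd hj (Nat.not_lt_zero j), gen_coeff_zero cc F⟩

/-- stable layers: the lex space has the smallest restriction -/
theorem green_core (h : c ≤ n) (h' : c ≤ n + 1) (a : Fin c → ℕ)
    (ha : Monotone a) (h2 : ∀ i, 2 ≤ a i) (f : Fin c → MvPolynomial (Fin (n + 1)) K)
    (hf : ∀ i, (f i).IsHomogeneous (a i)) (hreg : IsRegularSeq f) (cc : Fin n → K)
    (hcc : IsRegularSeq fun i => rho cc (f i)) (D : ℕ)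
    (V : Submodule K (MvPolynomial (Fin (n + 1)) K))
    (hV1 : piece (Ideal.span (Set.range f)) D ≤ V)
    (hV2 : V ≤ homogeneousSubmodule (Fin (n + 1)) K D)
    (hs2 : ∀ k ≤ D, ∀ j : Fin n, ∀ b ∈ lay (V.map (chg cc)) (k + 1),
      X j * b ∈ lay (V.map (chg cc)) k) :
    lxl K h' a D (finrank K V) 0 ≤ lx K h a D (finrank K (V.map (rho cc).toLinearMap)) := by
  have hpos : ∀ i, 1 ≤ a i := fun i => le_trans one_le_two (h2 i)
  obtain ⟨hL2, ht1⟩ := chg_lay cc a f hf D V hV1 hV2
  rw [← lay_zero]
  generalize lay (V.map (chg cc)) = V2 at hs2 hL2 ht1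
  set fb : Fin c → MvPolynomial (Fin n) K := fun i => rho cc (f i) with hfb
  have hfbh : ∀ i, (fb i).IsHomogeneous (a i) := fun i => rho_isHomogeneous cc (hf i)
  have hE : EGHfor h a fb := fun I hI hfI => P200F.V.egh K h a ha h2 fb hfbh hcc I hI hfI
  have hV2h : ∀ i ≤ D, V2 i ≤ homogeneousSubmodule (Fin n) K (D - i) := by
    intro i hi
    have := hL2.le i
    rwa [Bd, if_pos hi] at this
  have hfin : ∀ i, Module.Finite K (V2 i) := fun i =>
    Submodule.finiteDimensional_of_le (hL2.le i)
  -- the lex layers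
  set q : ℕ → ℕ := fun i => finrank K (V2 i) - (insideP h a (D - i)).ncard with hq
  have hins : ∀ D, (insideP h a D).ncard = finrank K (piece (Ideal.span (Set.range fb)) D) :=
    fun D => ncard_insideP_le h a hpos fb hfbh hcc D
  have hins' : (insideP h' a (D)).ncard =
      finrank K (piece (Ideal.span (Set.range f)) (D)) :=
    ncard_insideP_le h' a hpos f hf hreg _
  have hfinV : Module.Finite K V := Submodule.finiteDimensional_of_le hV2
  have hv1 : (insideP h' a (D)).ncard ≤ finrank K V := by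
    rw [hins']
    exact Submodule.finrank_mono hV1
  have hv2 : finrank K V ≤ finrank K (homogeneousSubmodule (Fin (n + 1)) K (D)) :=
    Submodule.finrank_mono hV2
  set v := finrank K V with hv
  have hlxv : finrank K (lx K h' a (D) v) = v := finrank_lx h' a (D) v hv1 hv2
  have hcardi : ∀ i ≤ D, (lexSet h a (D - i) (q i)).ncard = finrank K (V2 i) := by
    intro i hi
    have h1 : (insideP h a (D - i)).ncard ≤ finrank K (V2 i) := by
      rw [hins]
      have := hfin i
      exact Submodule.finrank_mono (hL2.ge i hi)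
    have h2 : finrank K (V2 i) ≤ finrank K (homogeneousSubmodule (Fin n) K (D - i)) :=
      Submodule.finrank_mono (hV2h i hi)
    have h3 := finrank_lx (K := K) h a (D - i) (finrank K (V2 i)) h1 h2
    rwa [lx, finrank_restrictSupport _ (lexSet_finite _ _ _ _)] at h3
  have hcl : ∀ i < D, ∀ m ∈ lexSet h a (D - (i + 1)) (q (i + 1)), ∀ j : Fin n,
      m + Finsupp.single j 1 ∈ lexSet h a (D - i) (q i) := by
    intro i hi m hm j
    have e1 : D - i = D - (i + 1) + 1 := by omega
    have h1 := lexSet_closure h a hpos fb hfbh hcc hE (D - (i + 1)) (V2 (i + 1)) (V2 i)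
      (hL2.ge _ (by omega)) (hV2h _ (by omega)) (by rw [← e1]; exact hL2.ge i (by omega))
      (by rw [← e1]; exact hV2h i (by omega)) (fun j b hb => hs2 i (by omega) j b hb) m hm j
    rw [← e1] at h1
    exact h1
  have hcard : (lexSet h' a (D) (v - (insideP h' a (D)).ncard)).ncard ≤
      ∑ i ∈ Finset.range (D + 1), (lexSet h a (D - i) (q i)).ncard := by
    have h1 : (lexSet h' a (D) (v - (insideP h' a (D)).ncard)).ncard = v := by
      have h2 := hlxv
      rwa [lx, finrank_restrictSupport _ (lexSet_finite _ _ _ _)] at h2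
    rw [h1, ← ht1, tot]
    exact Finset.sum_le_sum fun i hi => (hcardi i (by rw [Finset.mem_range] at hi; omega)).ge
  have hlay := lex_layer h h' a (D) q (v - (insideP h' a (D)).ncard) hcl hcard
  refine restrictSupport_mono K fun m hm => ?_
  exact hlay m hm

theorem piece_map {I : Ideal (MvPolynomial (Fin (n + 1)) K)} (hI : HomIdeal I) (cc : Fin n → K)
    {g : MvPolynomial (Fin n) K} {d : ℕ} (hg : g.IsHomogeneous d)
    {u : MvPolynomial (Fin (n + 1)) K} (hu : u ∈ I) (h : rho cc u = g) :
    g ∈ (piece I d).map (rho cc).toLinearMap := by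
  refine ⟨homogeneousComponent d u, ⟨hI u hu d, homogeneousComponent_isHomogeneous _ _⟩, ?_⟩
  change rho cc _ = _
  rw [← (gen_rho_eliminates cc).comp_map, h, comp_self hg]

theorem finrank_section {I : Ideal (MvPolynomial (Fin (n + 1)) K)} (hI : HomIdeal I)
    (cc : Fin n → K) (d : ℕ) :
    finrank K (piece (I ⊔ Ideal.span {gen_l cc}) d) +
        finrank K (homogeneousSubmodule (Fin n) K d) =
      finrank K ((piece I d).map (rho cc).toLinearMap) +
        finrank K (homogeneousSubmodule (Fin (n + 1)) K d) := by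
  have hE := gen_rho_eliminates cc
  have hker : ∀ g, rho cc g = 0 ↔ g ∈ Ideal.span {gen_l cc} := fun g => by
    rw [← hE.ker, RingHom.mem_ker]
  haveI : Module.Finite K (piece (I ⊔ Ideal.span {gen_l cc}) d) :=
    Submodule.finiteDimensional_of_le (G.piece_le _ d)
  have h1 := finrank_map_add (rho cc).toLinearMap (piece (I ⊔ Ideal.span {gen_l cc}) d)
  have h2 := finrank_map_add (rho cc).toLinearMap (homogeneousSubmodule (Fin (n + 1)) K d)
  have h3 : (piece (I ⊔ Ideal.span {gen_l cc}) d).map (rho cc).toLinearMap =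
      (piece I d).map (rho cc).toLinearMap := by
    refine le_antisymm ?_ (Submodule.map_mono (piece_mono le_sup_left d))
    rintro _ ⟨g, hg, rfl⟩
    obtain ⟨u, hu, w, hw, huw⟩ := Submodule.mem_sup.1 hg.1
    refine piece_map hI cc (hE.homog d g hg.2) hu ?_
    change _ = rho cc g
    rw [← huw, map_add, (hker w).2 hw, add_zero]
  have h4 : (homogeneousSubmodule (Fin (n + 1)) K d).map (rho cc).toLinearMap =
      homogeneousSubmodule (Fin n) K d := by
    apply le_antisymm
    · rintro _ ⟨g, hg, rfl⟩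
      exact hE.homog d g hg
    · intro g hg
      obtain ⟨u, hu, rfl⟩ := hE.exists_lift (d := d) hg
      exact ⟨u, hu, rfl⟩
  have h5 : piece (I ⊔ Ideal.span {gen_l cc}) d ⊓ LinearMap.ker (rho cc).toLinearMap =
      homogeneousSubmodule (Fin (n + 1)) K d ⊓ LinearMap.ker (rho cc).toLinearMap := by
    refine le_antisymm (inf_le_inf_right _ (G.piece_le _ d)) ?_
    rintro g ⟨hg, hg'⟩
    exact ⟨⟨Ideal.mem_sup_right ((hker g).1 hg'), hg⟩, hg'⟩
  rw [h3, h5] at h1
  rw [h4] at h2
  omega

theorem gen_l_eq (cc : Fin n → K) : gen_l cc =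
    X (Fin.last n) - ∑ j, C (cc j) * (X j.castSucc : MvPolynomial (Fin (n + 1)) K) := by
  rw [gen_l, map_sum]
  simp

theorem avoid_open (h : c ≤ n) (f : Fin c → MvPolynomial (Fin (n + 1)) K)
    (q : Ideal (MvPolynomial (Fin (n + 1)) K))
    (hq : q ∈ (Ideal.span (Set.range f)).minimalPrimes) :
    ∃ Φ : MvPolynomial (Fin n) K, Φ ≠ 0 ∧ ∀ cc, eval cc Φ ≠ 0 → gen_l cc ∉ q := by
  classical
  obtain ⟨c0, hc0⟩ : ∃ c0 : Fin n → K, gen_l c0 ∉ q := by
    by_contra h1
    push Not at h1
    have h2 : (X (Fin.last n) : MvPolynomial (Fin (n + 1)) K) ∈ q := by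
      have h3 := h1 0
      rw [gen_l_eq] at h3
      simpa using h3
    have h3 : irr K (n + 1) ≤ q := by
      rw [irr, Ideal.span_le]
      rintro _ ⟨i, rfl⟩
      refine Fin.lastCases h2 (fun j => ?_) i
      have h4 := h1 (Pi.single j 1)
      rw [gen_l_eq, Finset.sum_eq_single j, Pi.single_eq_same, C_1, one_mul] at h4
      · have h5 := q.sub_mem h2 h4
        rwa [sub_sub_cancel] at h5
      · intro l _ hl
        rw [Pi.single_eq_of_ne hl, map_zero, zero_mul]
      · intro h5
        exact absurd (Finset.mem_univ j) h5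
    have h4 : irr K (n + 1) = q := irr_isMaximal.eq_of_le hq.1.1.ne_top h3
    have h5 := height_le_of_minimal (Set.finite_range f) (ncard_range_le f) hq
    rw [← h4, height_irr] at h5
    have h6 : n + 1 ≤ c := by exact_mod_cast h5
    omega
  have hp : IsPoly fun cc : Fin n → K => (Ideal.Quotient.mkₐ K q).toLinearMap (gen_l cc) := by
    have h1 := isPoly_eval (K := K)
      (C (X (Fin.last n)) - ∑ j : Fin n, X j * C (X j.castSucc) :
        MvPolynomial (Fin n) (MvPolynomial (Fin (n + 1)) K))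
    refine IsPoly.map (IsPoly.congr h1 fun cc => ?_) _
    rw [gen_l_eq]
    simp
  have hne : ∀ cc : Fin n → K, (LinearIndependent K fun _ : Unit =>
      (Ideal.Quotient.mkₐ K q).toLinearMap (gen_l cc)) ↔ gen_l cc ∉ q := fun cc => by
    rw [linearIndependent_unique_iff]
    exact not_congr Ideal.Quotient.eq_zero_iff_mem
  obtain ⟨Φ, h1, h2⟩ := indep_open (fun _ : Unit => _) (fun _ => hp) c0 ((hne c0).2 hc0)
  exact ⟨Φ, fun h => h1 (by rw [h, map_zero]), fun cc hcc => (hne cc).1 (h2 cc hcc)⟩

/-- **Green's hyperplane restriction theorem over complete intersections** -/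
theorem green [CharZero K] (h : c ≤ n) (h' : c ≤ n + 1) (a : Fin c → ℕ)
    (ha : Monotone a) (h2 : ∀ i, 2 ≤ a i) (f : Fin c → MvPolynomial (Fin (n + 1)) K)
    (hf : ∀ i, (f i).IsHomogeneous (a i)) (hreg : IsRegularSeq f)
    (I : Ideal (MvPolynomial (Fin (n + 1)) K)) (hI : HomIdeal I) (hfI : ∀ i, f i ∈ I)
    (J : Ideal (MvPolynomial (Fin (n + 1)) K)) (hJ : J.restrictScalars K = lexPlusPowers h' a I) :
    ∃ Φ : MvPolynomial (Fin n) K, Φ ≠ 0 ∧ ∀ cc, eval cc Φ ≠ 0 → ∀ d,
      finrank K (piece (J ⊔ Ideal.span {X (Fin.last n)}) d) ≤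
        finrank K (piece (I ⊔ Ideal.span {gen_l cc}) d) := by
  classical
  have hpos : ∀ i, 1 ≤ a i := fun i => le_trans one_le_two (h2 i)
  obtain ⟨hJ1, hJ2, -⟩ := lexPlusPowers_spec h' a hpos f hf hreg I hI hfI J hJ
  obtain ⟨T, hT⟩ : J.FG := IsNoetherian.noetherian J
  set D := T.sup totalDegree with hD
  haveI hfin : ∀ d, Module.Finite K (piece I d) := fun d =>
    Submodule.finiteDimensional_of_le (G.piece_le _ d)
  choose Φ1 hΦ1 hΦ1' using fun d k => rank_max (fun cc : Fin n → K => trc K n (k + 1) ∘ₗ chg cc)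
    (fun e => (isPoly_chg e).map (trc K n (k + 1))) (piece I d)
  have hmin := (Ideal.span (Set.range f)).finite_minimalPrimes_of_isNoetherianRing
  choose Φ2 hΦ2 hΦ2' using fun q : hmin.toFinset =>
    avoid_open h f q.1 (hmin.mem_toFinset.1 q.2)
  refine ⟨(∏ d ∈ Finset.range (D + 1), ∏ k ∈ Finset.range (D + 1), Φ1 d k) * ∏ q, Φ2 q,
    mul_ne_zero (Finset.prod_ne_zero_iff.2 fun d _ => Finset.prod_ne_zero_iff.2 fun k _ => hΦ1 d k)
      (Finset.prod_ne_zero_iff.2 fun q _ => hΦ2 q), fun cc hcc => ?_⟩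
  simp only [map_mul, map_prod, mul_ne_zero_iff, Finset.prod_ne_zero_iff] at hcc
  have hreg' := rho_regular h a hpos f hf hreg cc fun q hq =>
    hΦ2' ⟨q, hmin.mem_toFinset.2 hq⟩ cc (hcc.2 _ (Finset.mem_univ _))
  have hE := gen_rho_eliminates cc
  set I' : Ideal (MvPolynomial (Fin n) K) := I.map (rho cc) with hI'
  have hp : ∀ d, piece I' d = (piece I d).map (rho cc).toLinearMap := by
    intro d
    apply le_antisymm
    · intro g hg
      obtain ⟨u, hu, hu'⟩ := (Ideal.mem_map_iff_of_surjective (rho cc) hE.surj).1 hg.1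
      exact piece_map hI cc hg.2 hu hu'
    · rintro _ ⟨g, hg, rfl⟩
      exact ⟨Ideal.mem_map_of_mem _ hg.1, hE.homog d g hg.2⟩
  have hI'h : HomIdeal I' := by
    intro g hg d
    obtain ⟨u, hu, rfl⟩ := (Ideal.mem_map_iff_of_surjective (rho cc) hE.surj).1 hg
    rw [hE.comp_map]
    exact Ideal.mem_map_of_mem _ (hI u hu d)
  have hfI' : ∀ i, rho cc (f i) ∈ I' := fun i => Ideal.mem_map_of_mem _ (hfI i)
  have hfb : ∀ i, (rho cc (f i)).IsHomogeneous (a i) := fun i => rho_isHomogeneous cc (hf i)
  obtain ⟨J', hJ'⟩ := V.egh K h a ha h2 _ hfb hreg' I' hI'h hfI'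
  obtain ⟨-, hJ'2, hJ'3⟩ := lexPlusPowers_spec h a hpos _ hfb hreg' I' hI'h hfI' J' hJ'
  have hsp : Ideal.span (Set.range f) ≤ I := by
    rw [Ideal.span_le]
    rintro _ ⟨i, rfl⟩
    exact hfI i
  have hlow : ∀ d ≤ D, ∀ g ∈ piece J d, rho 0 g ∈ J' := by
    intro d hd g hg
    have h1 := green_core h h' a ha h2 f hf hreg cc hreg' d (piece I d) (piece_mono hsp d)
      (G.piece_le I d) fun k hk j => stable_of_max (piece I d) cc k
        (hΦ1' d k cc (hcc.1 d (Finset.mem_range.2 (by omega)) k (Finset.mem_range.2 (by omega)))) j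
    rw [← hp, ← lexPart_eq_lx, ← hJ'2] at h1
    refine (h1 ?_).1
    rw [hJ2, lexPart_eq_lx] at hg
    have h3 : eE K n g ∈ grs (lxl K h' a d (finrank K (piece I d))) := by
      rw [← map_eE_lx]
      exact ⟨g, hg, rfl⟩
    rw [← gen_coeff_zero, gen_phi_eq]
    simpa using h3 0
  have hall : J ≤ J'.comap (rho (0 : Fin n → K)) := by
    rw [← hT, Ideal.span_le]
    intro g hg
    have h1 : g ∈ J := hT ▸ Ideal.subset_span hg
    rw [← sum_homogeneousComponent g]
    refine Ideal.sum_mem _ fun d hd => hlow d ?_ _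
      ⟨hJ1 g h1 d, homogeneousComponent_isHomogeneous _ _⟩
    have h3 : g.totalDegree ≤ D := Finset.le_sup hg
    rw [Finset.mem_range] at hd
    omega
  intro d
  have e1 := finrank_section hI cc d
  have e2 := finrank_section hJ1 0 d
  have e3 : gen_l (0 : Fin n → K) = X (Fin.last n) := by
    rw [gen_l_eq]
    simp
  haveI : Module.Finite K (piece J' d) := Submodule.finiteDimensional_of_le (G.piece_le _ d)
  have e4 : finrank K ((piece J d).map (rho (0 : Fin n → K)).toLinearMap) ≤
      finrank K (piece J' d) := by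
    refine Submodule.finrank_mono ?_
    rintro _ ⟨g, hg, rfl⟩
    exact ⟨hall hg.1, rho_isHomogeneous 0 hg.2⟩
  rw [e3] at e2
  rw [hJ'3, hp] at e4
  omega

end Vale.Agent.N200
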