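import Vale.Agent.P200F.L7
import Vale.Agent.N200.Def

set_option linter.all false

namespace Vale.Agent.N200

open MvPolynomial Module Vale.Agent.P200F Vale.Agent.P200F.B Vale.Agent.P200F.G
  Vale.Agent.P200F.L

section gen

variable {K R R' : Type*} [Field K] [CommRing R] [Algebra K R] [CommRing R'] [Algebra K R']
  {n : ℕ}

/-- Koszul cycles -/
def cyc (x : Fin n → R) (W : ℕ → Submodule K R) (p : ℕ) : Submodule K (Finset (Fin n) → R) :=
  chW n p (W p) ⊓ LinearMap.ker (kdL K x)

/-- Koszul boundaries -/
def bdy (x : Fin n → R) (W : ℕ → Submodule K R) (p : ℕ) : Submodule K (Finset (Fin n) → R) :=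
  (chW n (p + 1) (W (p + 1))).map (kdL K x)

/-- dimension of the Koszul homology -/
noncomputable def hb (x : Fin n → R) (W : ℕ → Submodule K R) (p : ℕ) : ℕ :=
  finrank K (cyc x W p) - finrank K (bdy x W p)

theorem kdL_apply (x : Fin n → R) (c : Finset (Fin n) → R) : kdL K x c = kd x c := rfl

theorem map_sign (φ : R →ₗ[K] R') (k : ℕ) (y : R) : φ ((-1) ^ k * y) = (-1) ^ k * φ y := by
  rcases Nat.even_or_odd k with h | h
  · rw [h.neg_one_pow, h.neg_one_pow, one_mul, one_mul]
  · rw [h.neg_one_pow, h.neg_one_pow, neg_one_mul, neg_one_mul, map_neg]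

theorem kd_phi {x : Fin n → R} {x' : Fin n → R'} (φ : R →ₗ[K] R')
    (hφ : ∀ i v, φ (x i * v) = x' i * φ v) (c : Finset (Fin n) → R) (t : Finset (Fin n)) :
    φ (kd x c t) = kd x' (fun s => φ (c s)) t := by
  rw [kd_apply, kd_apply, map_sum]
  refine Finset.sum_congr rfl fun i _ => ?_
  rw [map_sign, hφ]

theorem kd_mem {x : Fin n → R} {U V : Submodule K R} (h : ∀ i, ∀ v ∈ V, x i * v ∈ U)
    {c : Finset (Fin n) → R} (hc : ∀ s, c s ∈ V) (t : Finset (Fin n)) : kd x c t ∈ U := by
  rw [kd_apply]
  refine U.sum_mem fun i _ => ?_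
  rw [sign_mem]
  exact h i _ (hc _)

theorem bdy_le_cyc {x : Fin n → R} {W : ℕ → Submodule K R}
    (hW : ∀ p i, ∀ v ∈ W (p + 1), x i * v ∈ W p) (p : ℕ) : bdy x W p ≤ cyc x W p := by
  rintro _ ⟨c, hc, rfl⟩
  exact ⟨⟨fun t ht => kd_card hc.1 t ht, fun t => kd_mem (hW p) hc.2 t⟩, kd_sq x c⟩

theorem bdy_add (x : Fin n → R) (W : ℕ → Submodule K R) [∀ p, Module.Finite K (W p)] (p : ℕ) :
    finrank K (bdy x W p) + finrank K (cyc x W (p + 1)) =
      n.choose (p + 1) * finrank K (W (p + 1)) := by
  rw [← finrank_chW]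
  exact finrank_map_add (kdL K x) (chW n (p + 1) (W (p + 1)))

theorem cyc_zero (x : Fin n → R) (W : ℕ → Submodule K R) : cyc x W 0 = chW n 0 (W 0) :=
  le_antisymm inf_le_left fun c hc => ⟨hc, kd_card_zero hc.1⟩

theorem lift_ch (φ : R →ₗ[K] R') {V : Submodule K R} {p : ℕ} {c' : Finset (Fin n) → R'}
    (hc : c' ∈ chW n p (V.map φ)) : ∃ c ∈ chW n p V, ∀ s, φ (c s) = c' s := by
  classical
  choose w hw hw' using fun s => Submodule.mem_map.1 (hc.2 s)
  refine ⟨fun s => if s.card = p then w s else 0, ⟨fun s hs => if_neg hs, fun s => ?_⟩,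
    fun s => ?_⟩
  · dsimp only
    split_ifs
    · exact hw s
    · exact V.zero_mem
  · dsimp only
    split_ifs with h
    · exact hw' s
    · rw [map_zero, hc.1 s h]

/-- dimension shifting -/
theorem shift {x : Fin n → R} {x' : Fin n → R'} (φ : R →ₗ[K] R')
    (hφ : ∀ i v, φ (x i * v) = x' i * φ v) (W : ℕ → Submodule K R)
    [hfin : ∀ p, Module.Finite K (W p)]
    (hW : ∀ p i, ∀ v ∈ W (p + 1), x i * v ∈ W p)
    (hE1 : ∀ p, cyc x W (p + 1) ≤ bdy x W (p + 1))
    (hE0 : chW n 0 (W 0 ⊓ LinearMap.ker φ) ≤ bdy x W 0) :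
    (∀ p, hb x' (fun p => (W p).map φ) (p + 1) = hb x (fun p => W p ⊓ LinearMap.ker φ) p) ∧
      hb x' (fun p => (W p).map φ) 0 = hb x W 0 := by
  set U : ℕ → Submodule K R := fun p => W p ⊓ LinearMap.ker φ with hU
  set U' : ℕ → Submodule K R' := fun p => (W p).map φ with hU'
  haveI hfU : ∀ p, Module.Finite K (U p) := fun p =>
    Submodule.finiteDimensional_of_le (inf_le_left : U p ≤ W p)
  haveI hfU' : ∀ p, Module.Finite K (U' p) := fun p => Module.Finite.map (W p) φ
  set Φ : (Finset (Fin n) → R) →ₗ[K] (Finset (Fin n) → R') := φ.compLeft (Finset (Fin n)) with hΦ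
  have hΦa : ∀ c s, Φ c s = φ (c s) := fun _ _ => rfl
  have hE : ∀ p, cyc x U p ≤ bdy x W p := by
    intro p
    cases p with
    | zero => exact le_trans inf_le_left hE0
    | succ p =>
      refine le_trans ?_ (hE1 p)
      rintro c ⟨hc, hc'⟩
      exact ⟨⟨hc.1, fun s => (hc.2 s).1⟩, hc'⟩
  have hb' : ∀ p, finrank K (cyc x' U' (p + 1)) + n.choose (p + 1) * finrank K (U (p + 1)) =
      finrank K (rc x (U p) (W (p + 1)) (p + 1)) := by
    intro p
    have h1 := finrank_map_add Φ (rc x (U p) (W (p + 1)) (p + 1))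
    have h2 : (rc x (U p) (W (p + 1)) (p + 1)).map Φ = cyc x' U' (p + 1) := by
      apply le_antisymm
      · rintro _ ⟨c, hc, rfl⟩
        refine ⟨⟨fun s hs => ?_, fun s => ⟨c s, hc.1.2 s, rfl⟩⟩, ?_⟩
        · rw [hΦa, hc.1.1 s hs, map_zero]
        · rw [SetLike.mem_coe, LinearMap.mem_ker]
          funext t
          exact (kd_phi φ hφ c t).symm.trans (hc.2 t).2
      · rintro c' ⟨hc, hc'⟩
        obtain ⟨c, h3, h4⟩ := lift_ch φ hc
        have h5 : Φ c = c' := funext h4
        refine ⟨c, ⟨h3, fun t => ⟨kd_mem (hW p) h3.2 t, ?_⟩⟩, h5⟩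
        rw [SetLike.mem_coe, LinearMap.mem_ker, kd_phi φ hφ c t]
        have h6 : (fun s => φ (c s)) = c' := funext h4
        rw [h6]
        exact congrFun (LinearMap.mem_ker.1 hc') t
    have h3 : rc x (U p) (W (p + 1)) (p + 1) ⊓ LinearMap.ker Φ = chW n (p + 1) (U (p + 1)) := by
      apply le_antisymm
      · rintro c ⟨hc, hc'⟩
        exact ⟨hc.1.1, fun s => ⟨hc.1.2 s, congrFun (LinearMap.mem_ker.1 hc') s⟩⟩
      · intro c hc
        refine ⟨⟨⟨hc.1, fun s => (hc.2 s).1⟩, fun t => ?_⟩, ?_⟩
        · refine kd_mem (x := x) (U := U p) (V := U (p + 1))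
            (fun i v hv => ⟨hW p i v hv.1, ?_⟩) hc.2 t
          have h4 : φ v = 0 := hv.2
          change φ (x i * v) = 0
          rw [hφ, h4, mul_zero]
        · rw [SetLike.mem_coe, LinearMap.mem_ker]
          funext s
          exact (hc.2 s).2
    rw [h2, h3, finrank_chW] at h1
    exact h1
  have hc' : ∀ p, finrank K (cyc x U p) + finrank K (cyc x W (p + 1)) =
      finrank K (rc x (U p) (W (p + 1)) (p + 1)) := by
    intro p
    have h1 := finrank_map_add (kdL K x) (rc x (U p) (W (p + 1)) (p + 1))
    have h2 : (rc x (U p) (W (p + 1)) (p + 1)).map (kdL K x) = cyc x U p := by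
      apply le_antisymm
      · rintro _ ⟨c, hc, rfl⟩
        exact ⟨⟨fun t ht => kd_card hc.1.1 t ht, hc.2⟩, kd_sq x c⟩
      · intro z hz
        obtain ⟨c, h3, h4⟩ := hE p hz
        refine ⟨c, ⟨h3, fun t => ?_⟩, h4⟩
        have h5 : kd x c = z := h4
        rw [h5]
        exact hz.1.2 t
    have h3 : rc x (U p) (W (p + 1)) (p + 1) ⊓ LinearMap.ker (kdL K x) = cyc x W (p + 1) := by
      apply le_antisymm
      · rintro c ⟨hc, hc'⟩
        exact ⟨hc.1, hc'⟩
      · rintro c ⟨hc, hc'⟩
        refine ⟨⟨hc, fun t => ?_⟩, hc'⟩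
        have h5 : kd x c = 0 := hc'
        rw [h5]
        exact (U p).zero_mem
    rw [h2, h3] at h1
    exact h1
  have he : ∀ p q, n.choose q * finrank K (U' p) + n.choose q * finrank K (U p) =
      n.choose q * finrank K (W p) := by
    intro p q
    rw [← mul_add, finrank_map_add φ (W p)]
  have hf : ∀ p, finrank K (cyc x W (p + 1)) = finrank K (bdy x W (p + 1)) := fun p => by
    rw [le_antisymm (hE1 p) (bdy_le_cyc hW (p + 1))]
  refine ⟨fun p => ?_, ?_⟩
  · have e1 := hb' p
    have e2 := hb' (p + 1)
    have e3 := hc' p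
    have e4 := hc' (p + 1)
    have e5 := bdy_add x' U' (p + 1)
    have e6 := bdy_add x U p
    have e7 := bdy_add x W (p + 1)
    have e8 := he (p + 1 + 1) (p + 1 + 1)
    have e9 := hf p
    unfold hb
    omega
  · have e1 := hb' 0
    have e3 := hc' 0
    have e5 := bdy_add x' U' 0
    have e7 := bdy_add x W 0
    have e8 := he (0 + 1) (0 + 1)
    have e9 := he 0 0
    have e10 : finrank K (cyc x' U' 0) = n.choose 0 * finrank K (U' 0) := by
      rw [cyc_zero, finrank_chW]
    have e11 : finrank K (cyc x U 0) = n.choose 0 * finrank K (U 0) := by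
      rw [cyc_zero, finrank_chW]
    have e12 : finrank K (cyc x W 0) = n.choose 0 * finrank K (W 0) := by
      rw [cyc_zero, finrank_chW]
    unfold hb
    omega

theorem hb_eq_zero_iff {x : Fin n → R} {W : ℕ → Submodule K R} [∀ p, Module.Finite K (W p)]
    (hW : ∀ p i, ∀ v ∈ W (p + 1), x i * v ∈ W p) (p : ℕ) :
    hb x W p = 0 ↔ cyc x W p ≤ bdy x W p := by
  have hfc : Module.Finite K (cyc x W p) :=
    Submodule.finiteDimensional_of_le (inf_le_left : cyc x W p ≤ chW n p (W p))
  constructor
  · intro h
    have h1 : finrank K (cyc x W p) ≤ finrank K (bdy x W p) := by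
      unfold hb at h
      omega
    exact (Submodule.eq_of_le_of_finrank_le (bdy_le_cyc hW p) h1).ge
  · intro h
    unfold hb
    rw [le_antisymm h (bdy_le_cyc hW p), Nat.sub_self]

end gen

section poly

variable {K : Type*} [Field K] {n : ℕ}

theorem sum_add' (a b : Fin n →₀ ℕ) : ∑ i, (a + b) i = ∑ i, a i + ∑ i, b i := by
  simp only [Finsupp.add_apply, Finset.sum_add_distrib]

theorem sum_single' (i : Fin n) (k : ℕ) : ∑ j, (Finsupp.single i k : Fin n →₀ ℕ) j = k := by
  classical
  simp only [Finsupp.single_apply]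
  simp

/-- a cycle whose entries away from `i` are multiples of `x_i` is a boundary -/
theorem cycle_div (i : Fin n) (y g : Finset (Fin n) → MvPolynomial (Fin n) K)
    (hy : kd X y = 0) (hg : ∀ s, i ∉ s → y s = X i * g s) :
    kd X (eps (Pi.single i 1) g) = y := by
  classical
  funext t
  have h1 := kd_eps X (Pi.single i (1 : MvPolynomial (Fin n) K)) y t
  have h2 : ∑ k, (Pi.single i (1 : MvPolynomial (Fin n) K) : Fin n → _) k * X k = X i := by
    rw [Finset.sum_eq_single i]
    · rw [Pi.single_eq_same, one_mul]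
    · intro k _ hk
      rw [Pi.single_eq_of_ne hk, zero_mul]
    · intro h
      exact absurd (Finset.mem_univ i) h
  have h3 : eps (Pi.single i (1 : MvPolynomial (Fin n) K)) (0 : Finset (Fin n) → _) t = 0 := by
    unfold eps
    simp
  have h4 : eps (Pi.single i (1 : MvPolynomial (Fin n) K)) y =
      fun s => X i * eps (Pi.single i 1) g s := by
    funext s
    unfold eps
    rw [Finset.mul_sum]
    refine Finset.sum_congr rfl fun k _ => ?_
    by_cases hk : k = i
    · subst hk
      rw [hg _ (Finset.notMem_erase _ _)]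
      ring
    · rw [Pi.single_eq_of_ne hk]
      ring
  rw [hy, h2, h3, add_zero, h4, kd_mul] at h1
  exact mul_left_cancel₀ (X_ne_zero i) h1

/-- the Koszul complex of the polynomial ring is exact -/
theorem exactT (e j p : ℕ) (T : Finset (Fin n)) :
    ∀ z : Finset (Fin n) → MvPolynomial (Fin n) K, (∀ s, s.card ≠ p → z s = 0) →
      (∀ s m, coeff m (z s) ≠ 0 → ∑ i, m i + e + p = j) → kd X z = 0 → coeff 0 (z ∅) = 0 →
      (∀ s m, coeff m (z s) ≠ 0 → ∀ i, i ∉ T → i ∉ s ∧ m i = 0) →
      ∃ w : Finset (Fin n) → MvPolynomial (Fin n) K, (∀ s, s.card ≠ p + 1 → w s = 0) ∧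
        (∀ s m, coeff m (w s) ≠ 0 → ∑ i, m i + e + (p + 1) = j) ∧ kd X w = z := by
  classical
  induction T using Finset.induction_on with
  | empty =>
    intro z _ _ _ hz hT
    refine ⟨0, fun _ _ => rfl, fun s m h => absurd (coeff_zero m) h, ?_⟩
    have h0 : kd X (0 : Finset (Fin n) → MvPolynomial (Fin n) K) = 0 := (kdL K X).map_zero
    rw [h0]
    funext s
    ext m
    by_contra hne
    have h1 : coeff m (z s) ≠ 0 := fun h => hne (by rw [h]; rfl)
    have h2 := fun i => hT s m h1 i (Finset.notMem_empty i)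
    have h3 : s = ∅ := Finset.eq_empty_of_forall_notMem fun i => (h2 i).1
    have h4 : m = 0 := Finsupp.ext fun i => (h2 i).2
    subst h3 h4
    exact h1 hz
  | insert i T hi ih =>
    intro z h0 h1 hc hz hT
    set zt : Finset (Fin n) → MvPolynomial (Fin n) K := fun s =>
      if i ∈ s then 0 else (z s).modMonomial (Finsupp.single i 1) with hzt
    set g : Finset (Fin n) → MvPolynomial (Fin n) K := fun s =>
      if i ∈ s then 0 else (z s).divMonomial (Finsupp.single i 1) with hg
    have hcz : ∀ s m, coeff m (zt s) = if i ∉ s ∧ m i = 0 then coeff m (z s) else 0 := by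
      intro s m
      rw [hzt]
      dsimp only
      by_cases hs : i ∈ s
      · rw [if_pos hs, if_neg (fun h => h.1 hs), coeff_zero]
      · rw [if_neg hs]
        by_cases hm : m i = 0
        · rw [if_pos ⟨hs, hm⟩, coeff_modMonomial_of_not_le]
          rw [Finsupp.single_le_iff]
          omega
        · rw [if_neg (fun h => hm h.2), coeff_modMonomial_of_le]
          rw [Finsupp.single_le_iff]
          omega
    have hsub : ∀ s m, coeff m (zt s) ≠ 0 → coeff m (z s) ≠ 0 ∧ i ∉ s ∧ m i = 0 := by
      intro s m h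
      rw [hcz] at h
      by_cases h' : i ∉ s ∧ m i = 0
      · rw [if_pos h'] at h
        exact ⟨h, h'⟩
      · rw [if_neg h'] at h
        exact absurd rfl h
    have hcyc : kd X zt = 0 := by
      funext t
      by_cases ht : i ∈ t
      · rw [kd_apply, Pi.zero_apply]
        refine Finset.sum_eq_zero fun k _ => ?_
        have : zt (insert k t) = 0 := if_pos (Finset.mem_insert_of_mem ht)
        rw [this, mul_zero, mul_zero]
      · ext m
        have h2 : coeff m (kd X zt t) = if m i = 0 then coeff m (kd X z t) else 0 := by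
          rw [kd_apply, kd_apply, coeff_sum, coeff_sum]
          have h3 : ∀ k (y : MvPolynomial (Fin n) K), coeff m ((-1) ^ k * y) =
              (-1) ^ k * coeff m y := fun k y => map_sign (lcoeff K m) k y
          split_ifs with hm
          · refine Finset.sum_congr rfl fun k _ => ?_
            rw [h3, h3, coeff_X_mul', coeff_X_mul']
            congr 1
            split_ifs with hk
            · have hki : k ≠ i := by
                rintro rfl
                exact Finsupp.mem_support_iff.1 hk hm
              rw [hcz, if_pos]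
              refine ⟨fun h => ?_, ?_⟩
              · rcases Finset.mem_insert.1 h with h | h
                · exact hki h.symm
                · exact ht h
              · rw [Finsupp.tsub_apply, hm, Nat.zero_sub]
            · rfl
          · refine Finset.sum_eq_zero fun k _ => ?_
            rw [h3, coeff_X_mul']
            split_ifs with hk
            · rw [hcz, if_neg, mul_zero]
              rintro ⟨h4, h5⟩
              have hki : i ≠ k := by
                rintro rfl
                exact h4 (Finset.mem_insert_self _ _)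
              rw [Finsupp.tsub_apply, Finsupp.single_eq_of_ne hki, Nat.sub_zero] at h5
              exact hm h5
            · rw [mul_zero]
        rw [h2, hc]
        simp
    obtain ⟨w1, hw0, hw1, hw2⟩ := ih zt
      (fun s hs => by
        ext m
        rw [hcz, h0 s hs]
        simp)
      (fun s m h => h1 s m (hsub s m h).1) hcyc
      (by
        rw [hcz, hz]
        simp)
      (fun s m h k hk => by
        by_cases hki : k = i
        · rw [hki]
          exact (hsub s m h).2
        · exact hT s m (hsub s m h).1 k (by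
            rw [Finset.mem_insert, not_or]
            exact ⟨hki, hk⟩))
    have hw3 : kd X (eps (Pi.single i 1) g) = z - zt := by
      refine cycle_div i _ g ?_ fun s hs => ?_
      · rw [kd_sub, hc, hcyc, sub_zero]
      · have h2 : zt s = (z s).modMonomial (Finsupp.single i 1) := if_neg hs
        have h3 : g s = (z s).divMonomial (Finsupp.single i 1) := if_neg hs
        rw [Pi.sub_apply, h2, h3, sub_eq_iff_eq_add]
        exact (divMonomial_add_modMonomial_single (z s) i).symm
    set Wg : Submodule K (MvPolynomial (Fin n) K) :=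
      restrictSupport K {m : Fin n →₀ ℕ | ∑ i, m i + e + (p + 1) = j} with hWg
    have hgW : g ∈ chW n p Wg := by
      refine ⟨fun s hs => ?_, fun s => ?_⟩
      · rw [hg]
        dsimp only
        rw [h0 s hs]
        simp
      · rw [hWg, mem_restrictSupport_iff]
        intro m hm
        have h2 : coeff m (g s) ≠ 0 := MvPolynomial.mem_support_iff.1 hm
        have h3 : i ∉ s := fun h => h2 (by
          have : g s = 0 := if_pos h
          rw [this, coeff_zero])
        have h4 : g s = (z s).divMonomial (Finsupp.single i 1) := if_neg h3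
        rw [h4, coeff_divMonomial] at h2
        have h5 := h1 s _ h2
        rw [sum_add', sum_single'] at h5
        change ∑ i, m i + e + (p + 1) = j
        omega
    have h6 := eps_mem_chW (Pi.single i (1 : K)) hgW
    have h7 : (fun k => algebraMap K (MvPolynomial (Fin n) K) ((Pi.single i (1 : K) : Fin n → K) k))
        = Pi.single i 1 := by
      funext k
      by_cases hk : k = i
      · subst hk
        rw [Pi.single_eq_same, Pi.single_eq_same, map_one]
      · rw [Pi.single_eq_of_ne hk, Pi.single_eq_of_ne hk, map_zero]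
    rw [h7] at h6
    refine ⟨w1 + eps (Pi.single i 1) g, fun s hs => ?_, fun s m hm => ?_, ?_⟩
    · rw [Pi.add_apply, hw0 s hs, h6.1 s hs, add_zero]
    · by_contra hne
      apply hm
      rw [Pi.add_apply, coeff_add]
      have h8 : coeff m (w1 s) = 0 := by
        by_contra h
        exact hne (hw1 s m h)
      have h9 : coeff m (eps (Pi.single i 1) g s) = 0 := by
        by_contra h
        have h10 := h6.2 s
        rw [hWg, mem_restrictSupport_iff] at h10
        exact hne (h10 (MvPolynomial.mem_support_iff.2 h))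
      rw [h8, h9, add_zero]
    · rw [kd_add, hw2, hw3, add_sub_cancel]

end poly

end Vale.Agent.N200
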