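import Vale.Agent.N200.Res
import Vale.Agent.P200.H710.Cancel

set_option linter.all false

namespace Vale.Agent.N200

open MvPolynomial Module Vale.Agent.P200F Vale.Agent.P200F.B Vale.Agent.P200F.G
  Vale.Agent.P200F.L

section comb

variable {n c : ℕ}

theorem exists_lt_of_sum {g b : Fin n →₀ ℕ} (h : ∑ i, g i < ∑ i, b i) : ∃ l, g l < b l := by
  by_contra h1
  push Not at h1
  have := Finset.sum_le_sum (s := Finset.univ) fun i _ => h1 i
  omega

/-- the graph of a multidegree is connected -/
theorem conn {Q : Type*} (h : c ≤ n) (a : Fin c → ℕ) (Ω : Set (Fin n →₀ ℕ)) (q τ : ℕ)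
    (hτ : 1 ≤ τ) (ha : ∀ i, a i ≤ τ)
    (hpow : ∀ i, Finsupp.single (Fin.castLE h i) (a i) ∈ Ω)
    (hlex : ∀ m m', m' ∈ Ω → m' ∈ outside h a q → m ∈ outside h a q → lexGT m m' → m ∈ Ω)
    (b : Fin n →₀ ℕ) (hb : q + τ < ∑ i, b i)
    (hdesc : ∀ m ∈ Ω, q < ∑ i, m i → ∑ i, m i < ∑ i, b i →
      ∃ i m', m' ∈ Ω ∧ m = m' + Finsupp.single i 1)
    (val : Fin n → Q)
    (hval : ∀ g ∈ Ω, (∀ l, g l ≤ b l) → ∀ i k, g i < b i → g k < b k → val i = val k)
    {i k : Fin n} {m m' : Fin n →₀ ℕ} (hm : m ∈ Ω) (hm' : m' ∈ Ω)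
    (hi : b = m + Finsupp.single i 1) (hk : b = m' + Finsupp.single k 1) : val i = val k := by
  classical
  have c4 : ∀ d, ∀ m ∈ Ω, ∑ i, m i = q + d → ∑ i, m i < ∑ i, b i →
      ∃ g ∈ Ω, ∑ i, g i = q ∧ ∀ l, g l ≤ m l := by
    intro d
    induction d with
    | zero => exact fun m hm h1 _ => ⟨m, hm, h1, fun _ => le_rfl⟩
    | succ d ih =>
      intro m hm h1 h2
      obtain ⟨i, m', h3, rfl⟩ := hdesc m hm (by omega) h2
      rw [sum_add', sum_single'] at h1 h2
      obtain ⟨g, h4, h5, h6⟩ := ih m' h3 (by omega) (by omega)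
      exact ⟨g, h4, h5, fun l => (h6 l).trans (Nat.le_add_right _ _)⟩
  have c5 : ∀ N, ∀ g ∈ Ω, ∀ g' ∈ Ω, ∑ i, g i = q → ∑ i, g' i = q → (∀ l, g l ≤ b l) →
      (∀ l, g' l ≤ b l) → ∑ l, ((g l - g' l) + (g' l - g l)) < N →
      ∀ i k, g i < b i → g' k < b k → val i = val k := by
    by_cases hP : ∃ s, a s ≤ b (Fin.castLE h s)
    · obtain ⟨s, hs⟩ := hP
      intro _ g hg g' hg' h1 h2 h3 h4 _ i k hi hk
      set w : Fin n →₀ ℕ := Finsupp.single (Fin.castLE h s) (a s) with hw
      have hwb : ∀ l, w l ≤ b l := by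
        intro l
        rw [hw, Finsupp.single_apply]
        split_ifs with h5
        · rw [← h5]
          exact hs
        · exact Nat.zero_le _
      have hws : ∑ l, w l ≤ τ := by
        rw [hw, sum_single']
        exact ha s
      obtain ⟨l, hl⟩ := exists_lt_of_sum (g := g + w) (b := b) (by rw [sum_add']; omega)
      obtain ⟨l', hl'⟩ := exists_lt_of_sum (g := g' + w) (b := b) (by rw [sum_add']; omega)
      rw [Finsupp.add_apply] at hl hl'
      exact (hval g hg h3 i l hi (by omega)).trans
        ((hval w (hpow s) hwb l l' (by omega) (by omega)).trans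
          (hval g' hg' h4 l' k (by omega) hk))
    · push Not at hP
      have hout : ∀ g : Fin n →₀ ℕ, ∑ i, g i = q → (∀ l, g l ≤ b l) → g ∈ outside h a q :=
        fun g h1 h2 => ⟨fun s => lt_of_le_of_lt (h2 _) (hP s), h1⟩
      intro N
      induction N with
      | zero => exact fun _ _ _ _ _ _ _ _ h => absurd h (Nat.not_lt_zero _)
      | succ N ih =>
        have key : ∀ g ∈ Ω, ∀ g' ∈ Ω, ∑ i, g i = q → ∑ i, g' i = q → (∀ l, g l ≤ b l) →
            (∀ l, g' l ≤ b l) → ∑ l, ((g l - g' l) + (g' l - g l)) < N + 1 → lexGT g g' →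
            ∀ i k, g i < b i → g' k < b k → val i = val k := by
          intro g hg g' hg' h1 h2 h3 h4 h5 ⟨s, hs, hs'⟩ i k hi hk
          obtain ⟨t, ht⟩ : ∃ t, g t < g' t := by
            by_contra h6
            push Not at h6
            have := Finset.sum_lt_sum (s := Finset.univ) (fun i _ => h6 i)
              ⟨s, Finset.mem_univ s, hs⟩
            omega
          have hst : s < t := by
            rcases lt_trichotomy s t with h6 | h6 | h6
            · exact h6
            · rw [h6] at hs
              omega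
            · have := hs' t h6
              omega
          obtain ⟨g0, hg0⟩ : ∃ g0, g' = g0 + Finsupp.single t 1 :=
            ⟨g' - Finsupp.single t 1, (tsub_add_cancel_of_le
              (Finsupp.single_le_iff.2 (by omega))).symm⟩
          have e1 : ∀ l, g' l = g0 l + if t = l then 1 else 0 := fun l => by
            rw [hg0, Finsupp.add_apply, Finsupp.single_apply]
          set g2 : Fin n →₀ ℕ := g0 + Finsupp.single s 1 with hg2
          have e2 : ∀ l, g2 l = g0 l + if s = l then 1 else 0 := fun l => by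
            rw [hg2, Finsupp.add_apply, Finsupp.single_apply]
          have e3 : ∑ i, g0 i + 1 = q := by
            rw [← h2, hg0, sum_add', sum_single']
          have e4 : ∑ i, g2 i = q := by rw [hg2, sum_add', sum_single', e3]
          have es : g' s = g0 s := by rw [e1, if_neg hst.ne', add_zero]
          have es2 : g2 s = g0 s + 1 := by rw [e2, if_pos rfl]
          have et : g' t = g0 t + 1 := by rw [e1, if_pos rfl]
          have et2 : g2 t = g0 t := by rw [e2, if_neg hst.ne, add_zero]
          have eo : ∀ l, l ≠ s → l ≠ t → g2 l = g' l := fun l h6 h7 => by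
            rw [e1, e2, if_neg h6.symm, if_neg h7.symm]
          have e5 : ∀ l, g2 l ≤ b l := by
            intro l
            have := h3 l
            have := h4 l
            by_cases h6 : l = s
            · subst h6
              omega
            · by_cases h7 : l = t
              · subst h7
                omega
              · rw [eo l h6 h7]
                exact h4 l
          have e6 : g2 ∈ Ω := hlex g2 g' hg' (hout g' h2 h4) (hout g2 e4 e5)
            ⟨s, by omega, fun l hl => eo l hl.ne (hl.trans hst).ne⟩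
          obtain ⟨l, hl⟩ := exists_lt_of_sum (g := g' + Finsupp.single s 1) (b := b)
            (by rw [sum_add', sum_single']; omega)
          rw [Finsupp.add_apply, Finsupp.single_apply] at hl
          have hl2 : g2 l < b l := by
            have := e1 l
            have := e2 l
            omega
          refine (ih g hg g2 e6 h1 e4 h3 e5 ?_ i l hi hl2).trans
            (hval g' hg' h4 l k (by omega) hk)
          refine lt_of_lt_of_le (Finset.sum_lt_sum (fun l _ => ?_) ⟨s, Finset.mem_univ s, ?_⟩)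
            (Nat.lt_succ_iff.1 h5)
          · by_cases h6 : l = s
            · subst h6
              omega
            · by_cases h7 : l = t
              · subst h7
                omega
              · rw [eo l h6 h7]
          · omega
        intro g hg g' hg' h1 h2 h3 h4 h5 i k hi hk
        by_cases hgg : g = g'
        · subst hgg
          exact hval g hg h3 i k hi hk
        · rcases lexGT_total hgg with h6 | h6
          · exact key g hg g' hg' h1 h2 h3 h4 h5 h6 i k hi hk
          · refine (key g' hg' g hg h2 h1 h4 h3 ?_ h6 k i hk hi).symm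
            simp only [add_comm (g' _ - g _)]
            exact h5
  have s1 : ∑ l, b l = ∑ l, m l + 1 := by rw [hi, sum_add', sum_single']
  have s2 : ∑ l, b l = ∑ l, m' l + 1 := by rw [hk, sum_add', sum_single']
  obtain ⟨g, hg, h1, h3⟩ := c4 (∑ l, m l - q) m hm (by omega) (by omega)
  obtain ⟨g', hg', h2, h4⟩ := c4 (∑ l, m' l - q) m' hm' (by omega) (by omega)
  have t1 : ∀ l, m l ≤ b l := fun l => by
    rw [hi, Finsupp.add_apply]
    omega
  have t2 : ∀ l, m' l ≤ b l := fun l => by
    rw [hk, Finsupp.add_apply]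
    omega
  refine c5 _ g hg g' hg' h1 h2 (fun l => (h3 l).trans (t1 l)) (fun l => (h4 l).trans (t2 l))
    (Nat.lt_succ_self _) i k (lt_of_le_of_lt (h3 i) ?_) (lt_of_le_of_lt (h4 k) ?_)
  · rw [hi, Finsupp.add_apply, Finsupp.single_eq_same]
    omega
  · rw [hk, Finsupp.add_apply, Finsupp.single_eq_same]
    omega

end comb

variable {K : Type*} [Field K] {n c : ℕ}

/-- forms of degree `j - p` -/
noncomputable def W0 (K : Type*) [Field K] (n j p : ℕ) : Submodule K (MvPolynomial (Fin n) K) :=
  restrictSupport K {m : Fin n →₀ ℕ | ∑ i, m i + 0 + p = j}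

theorem mem_W0 {j p : ℕ} {g : MvPolynomial (Fin n) K} :
    g ∈ W0 K n j p ↔ ∀ m, coeff m g ≠ 0 → ∑ i, m i + 0 + p = j := mem_restrictSupport_iff

theorem finite_W0 (j p : ℕ) : Module.Finite K (W0 K n j p) := by
  refine Submodule.finiteDimensional_of_le (S₂ := restrictTotalDegree (Fin n) K j) ?_
  intro v hv
  rw [mem_restrictTotalDegree, totalDegree, Finset.sup_le_iff]
  intro m hm
  have h3 := mem_W0.1 hv m (MvPolynomial.mem_support_iff.1 hm)
  rw [Finsupp.sum_fintype _ _ (fun _ => rfl)]
  omega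

theorem W0_closed (j p : ℕ) (i : Fin n) : ∀ v ∈ W0 K n j (p + 1), X i * v ∈ W0 K n j p := by
  intro v hv
  rw [mem_W0] at hv ⊢
  intro m hm
  obtain ⟨m', h1, rfl⟩ := coeff_X_mul_ne hm
  have h2 := hv m' h1
  rw [sum_add', sum_single']
  omega

theorem W0_exact {j : ℕ} (hj : 0 < j) (p : ℕ) : cyc X (W0 K n j) p ≤ bdy X (W0 K n j) p := by
  intro z hz
  obtain ⟨w, h0, h1, h2⟩ := exactT 0 j p Finset.univ z hz.1.1 (fun s => mem_W0.1 (hz.1.2 s)) hz.2
    (by
      by_contra h
      have h1 := mem_W0.1 (hz.1.2 ∅) 0 h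
      have h2 : (∅ : Finset (Fin n)).card ≠ p := by
        simp at h1 ⊢
        omega
      rw [hz.1.1 ∅ h2] at h
      exact h rfl)
    (fun s m _ k hk => absurd (Finset.mem_univ k) hk)
  exact ⟨w, ⟨h0, fun s => mem_W0.2 (h1 s)⟩, h2⟩

/-- the pieces of an ideal -/
noncomputable def UI (I : Ideal (MvPolynomial (Fin n) K)) (j p : ℕ) :
    Submodule K (MvPolynomial (Fin n) K) :=
  W0 K n j p ⊓ LinearMap.ker (Ideal.Quotient.mkₐ K I).toLinearMap

theorem mem_UI {I : Ideal (MvPolynomial (Fin n) K)} {j p : ℕ} {g : MvPolynomial (Fin n) K} :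
    g ∈ UI I j p ↔ g ∈ W0 K n j p ∧ g ∈ I :=
  and_congr Iff.rfl Ideal.Quotient.eq_zero_iff_mem

theorem UI_closed (I : Ideal (MvPolynomial (Fin n) K)) (j p : ℕ) (i : Fin n) :
    ∀ v ∈ UI I j (p + 1), X i * v ∈ UI I j p := fun v hv =>
  mem_UI.2 ⟨W0_closed j p i v (mem_UI.1 hv).1, I.mul_mem_left _ (mem_UI.1 hv).2⟩

theorem finite_UI (I : Ideal (MvPolynomial (Fin n) K)) (j p : ℕ) : Module.Finite K (UI I j p) :=
  haveI := finite_W0 (K := K) (n := n) j p
  Submodule.finiteDimensional_of_le (inf_le_left : UI I j p ≤ W0 K n j p)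

theorem betti_UI (I : Ideal (MvPolynomial (Fin n) K)) {j : ℕ} (hj : 0 < j) :
    (∀ p, betti I (p + 1) j = hb X (UI I j) p) ∧ betti I 0 j = 0 := by
  haveI := finite_W0 (K := K) (n := n) j
  have h1 := shift (x := X) (x' := fun i => Ideal.Quotient.mk I (X i))
    (Ideal.Quotient.mkₐ K I).toLinearMap (fun i v => map_mul (Ideal.Quotient.mk I) _ _)
    (W0 K n j) (W0_closed j) (fun p => W0_exact hj (p + 1)) (by
      refine le_trans ?_ (W0_exact hj 0)
      rw [cyc_zero]
      exact fun z hz => ⟨hz.1, fun s => (hz.2 s).1⟩)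
  have h2 : ∀ p, (W0 K n j p).map (Ideal.Quotient.mkₐ K I).toLinearMap = entry I p j := by
    intro p
    rw [entry]
    split_ifs with hp
    · rw [quotPiece, homogeneousSubmodule_eq_restrict, W0]
      congr 2
      ext m
      simp only [Set.mem_setOf_eq]
      omega
    · rw [eq_bot_iff]
      rintro _ ⟨v, hv, rfl⟩
      have h3 : v = 0 := by
        ext m
        by_contra h
        have := mem_W0.1 hv m h
        omega
      rw [h3, map_zero]
      exact Submodule.zero_mem _
  simp only [h2] at h1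
  refine ⟨fun p => (betti_eq_hb I (p + 1) j).trans (h1.1 p), (betti_eq_hb I 0 j).trans ?_⟩
  rw [h1.2, hb_eq_zero_iff (W0_closed j)]
  exact W0_exact hj 0

theorem kd_empty {R : Type*} [CommRing R] (x : Fin n → R) (c : Finset (Fin n) → R) :
    kd x c ∅ = ∑ i, x i * c {i} := by
  rw [kd_apply]
  simp

theorem mem_irr_mul {I : Ideal (MvPolynomial (Fin n) K)} {g : MvPolynomial (Fin n) K}
    (hg : g ∈ Ideal.span (Set.range (X : Fin n → MvPolynomial (Fin n) K)) * I) :
    ∃ u : Fin n → MvPolynomial (Fin n) K, (∀ i, u i ∈ I) ∧ g = ∑ i, X i * u i := by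
  refine Submodule.mul_induction_on hg (fun x hx y hy => ?_) ?_
  · obtain ⟨w, rfl⟩ := Ideal.mem_span_range_iff_exists_fun.1 hx
    refine ⟨fun i => w i * y, fun i => I.mul_mem_left _ hy, ?_⟩
    rw [Finset.sum_mul]
    exact Finset.sum_congr rfl fun i _ => by ring
  · rintro _ _ ⟨u, hu, rfl⟩ ⟨v, hv, rfl⟩
    refine ⟨u + v, fun i => I.add_mem (hu i) (hv i), ?_⟩
    rw [← Finset.sum_add_distrib]
    exact Finset.sum_congr rfl fun i _ => by rw [Pi.add_apply, mul_add]

/-- the first Betti numbers count the minimal generators -/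
theorem betti_one_iff {I : Ideal (MvPolynomial (Fin n) K)} (hI : HomIdeal I) {j : ℕ} (hj : 0 < j) :
    betti I 1 j = 0 ↔ ∀ g ∈ I, g.IsHomogeneous j →
      g ∈ Ideal.span (Set.range (X : Fin n → MvPolynomial (Fin n) K)) * I := by
  classical
  haveI := finite_UI I j
  rw [(betti_UI I hj).1 0, hb_eq_zero_iff (UI_closed I j), cyc_zero]
  constructor
  · intro h g hg hd
    have h1 : (Pi.single ∅ g : Finset (Fin n) → MvPolynomial (Fin n) K) ∈ chW n 0 (UI I j 0) := by
      refine ⟨fun s hs => Pi.single_eq_of_ne (fun h => hs (by rw [h]; rfl)) _, fun s => ?_⟩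
      by_cases hs : s = ∅
      · rw [hs, Pi.single_eq_same]
        exact mem_UI.2 ⟨mem_W0.2 fun m hm => hom_iff.1 hd m hm, hg⟩
      · rw [Pi.single_eq_of_ne hs]
        exact Submodule.zero_mem _
    obtain ⟨w, hw, hw'⟩ := h h1
    have h2 := congrFun hw' ∅
    rw [kdL_apply, kd_empty, Pi.single_eq_same] at h2
    rw [← h2]
    exact Ideal.sum_mem _ fun i _ =>
      Ideal.mul_mem_mul (Ideal.subset_span ⟨i, rfl⟩) (mem_UI.1 (hw.2 _)).2
  · intro h z hz
    have h1 := mem_UI.1 (hz.2 ∅)
    obtain ⟨u, hu, hu'⟩ := mem_irr_mul (h _ h1.2 (hom_iff.2 fun m hm => mem_W0.1 h1.1 m hm))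
    have hc : ∀ s : Finset (Fin n), s.card ≠ 0 + 1 →
        (∑ i, if s = {i} then pjc (0 + 1) j (u i) else 0) = 0 := fun s hs =>
      Finset.sum_eq_zero fun i _ => if_neg fun h => hs (by rw [h]; rfl)
    refine ⟨fun s => ∑ i, if s = {i} then pjc (0 + 1) j (u i) else 0,
      ⟨hc, fun s => Submodule.sum_mem _ fun i _ => ?_⟩, ?_⟩
    · split_ifs
      · refine mem_UI.2 ⟨mem_W0.2 fun m hm => ?_, pjc_mem hI _ _ (hu i)⟩
        rw [coeff_pjc] at hm
        split_ifs at hm with h2
        · omega
        · exact absurd rfl hm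
      · exact Submodule.zero_mem _
    · funext t
      rw [kdL_apply]
      by_cases ht : t = ∅
      · rw [ht, kd_empty, ← pjc_self (e := 0) (j := j) (g := z ∅) (mem_W0.1 h1.1), hu', pjc_sum]
        refine Finset.sum_congr rfl fun i _ => ?_
        rw [pjc_mul (isHomogeneous_X K i)]
        simp
      · have h2 : t.card ≠ 0 := fun h => ht (Finset.card_eq_zero.1 h)
        rw [kd_card hc t h2, hz.1 t h2]

theorem single_mem_chW {W : Submodule K (MvPolynomial (Fin n) K)} (k : Fin n)
    {u : MvPolynomial (Fin n) K} (hu : u ∈ W) :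
    (Pi.single {k} u : Finset (Fin n) → MvPolynomial (Fin n) K) ∈ chW n 1 W := by
  classical
  refine ⟨fun s hs => Pi.single_eq_of_ne (fun h => hs (by rw [h]; rfl)) _, fun s => ?_⟩
  by_cases hs : s = {k}
  · rw [hs, Pi.single_eq_same]
    exact hu
  · rw [Pi.single_eq_of_ne hs]
    exact Submodule.zero_mem _

/-- the trivial relations are boundaries -/
theorem edge_mem {W : Submodule K (MvPolynomial (Fin n) K)} (i k : Fin n)
    {u : MvPolynomial (Fin n) K} (hu : u ∈ W) :
    (Pi.single {k} (X i * u) - Pi.single {i} (X k * u) :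
      Finset (Fin n) → MvPolynomial (Fin n) K) ∈ (chW n (1 + 1) W).map (kdL K X) := by
  classical
  have h1 := single_mem_chW k hu
  refine ⟨_, eps_mem_chW (Pi.single i (1 : K)) h1, ?_⟩
  have h7 : (fun l => algebraMap K (MvPolynomial (Fin n) K) ((Pi.single i (1 : K) : Fin n → K) l))
      = Pi.single i 1 := by
    funext l
    by_cases hl : l = i
    · subst hl
      rw [Pi.single_eq_same, Pi.single_eq_same, map_one]
    · rw [Pi.single_eq_of_ne hl, Pi.single_eq_of_ne hl, map_zero]
  rw [h7]
  funext t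
  have h2 := kd_eps X (Pi.single i (1 : MvPolynomial (Fin n) K)) (Pi.single {k} u) t
  have h3 : ∑ l, (Pi.single i (1 : MvPolynomial (Fin n) K) : Fin n → _) l * X l = X i := by
    rw [Finset.sum_eq_single i]
    · rw [Pi.single_eq_same, one_mul]
    · intro l _ hl
      rw [Pi.single_eq_of_ne hl, zero_mul]
    · intro h
      exact absurd (Finset.mem_univ i) h
  have h4 : kd X (Pi.single {k} u : Finset (Fin n) → MvPolynomial (Fin n) K) =
      Pi.single ∅ (X k * u) := by
    funext s
    by_cases hs : s = ∅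
    · rw [hs, kd_empty, Pi.single_eq_same, Finset.sum_eq_single k]
      · rw [Pi.single_eq_same]
      · intro l _ hl
        rw [Pi.single_eq_of_ne (fun h => hl (Finset.singleton_injective h)), mul_zero]
      · intro h
        exact absurd (Finset.mem_univ k) h
    · rw [Pi.single_eq_of_ne hs]
      exact kd_card (p := 0) h1.1 s fun h => hs (Finset.card_eq_zero.1 h)
  have h5 : eps (Pi.single i (1 : MvPolynomial (Fin n) K))
      (Pi.single ∅ (X k * u) : Finset (Fin n) → MvPolynomial (Fin n) K) t =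
      (Pi.single {i} (X k * u) : Finset (Fin n) → MvPolynomial (Fin n) K) t := by
    unfold eps
    by_cases ht : t = {i}
    · rw [ht, Finset.sum_singleton, Pi.single_eq_same, Pi.single_eq_same, Finset.erase_singleton,
        Pi.single_eq_same]
      simp [Finset.filter_singleton]
    · rw [Pi.single_eq_of_ne ht]
      refine Finset.sum_eq_zero fun l hl => ?_
      by_cases hli : l = i
      · subst hli
        rw [Pi.single_eq_of_ne (i' := t.erase l), mul_zero, mul_zero]
        intro h
        apply ht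
        rw [← Finset.insert_erase hl, h]
        rfl
      · rw [Pi.single_eq_of_ne hli, zero_mul, mul_zero]
  rw [h3, h4, h5] at h2
  rw [kdL_apply, Pi.sub_apply, eq_sub_iff_add_eq, h2]
  by_cases ht : t = {k}
  · rw [ht, Pi.single_eq_same, Pi.single_eq_same]
  · rw [Pi.single_eq_of_ne ht, Pi.single_eq_of_ne ht, mul_zero]

/-- no second syzygies if all graphs are connected -/
theorem betti_two {J : Ideal (MvPolynomial (Fin n) K)} (Ω : Set (Fin n →₀ ℕ))
    (hJ : ∀ g, g ∈ J ↔ ∀ m, coeff m g ≠ 0 → m ∈ Ω) {j : ℕ} (hj : 0 < j)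
    (hconn : ∀ b : Fin n →₀ ℕ, ∑ i, b i = j →
      ∀ val : Fin n → (Finset (Fin n) → MvPolynomial (Fin n) K) ⧸ bdy X (UI J j) 1,
      (∀ g ∈ Ω, (∀ l, g l ≤ b l) → ∀ i k, g i < b i → g k < b k → val i = val k) →
      ∀ (i k : Fin n) (m m' : Fin n →₀ ℕ), m ∈ Ω → m' ∈ Ω → b = m + Finsupp.single i 1 →
        b = m' + Finsupp.single k 1 → val i = val k) : betti J 2 j = 0 := by
  classical
  haveI := finite_UI J j
  rw [(betti_UI J hj).1 1, hb_eq_zero_iff (UI_closed J j)]
  have hmon : ∀ m, m ∈ Ω ↔ (monomial m (1 : K) : MvPolynomial (Fin n) K) ∈ J := by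
    intro m
    rw [hJ]
    constructor
    · intro hm m' hm'
      rw [coeff_monomial] at hm'
      split_ifs at hm' with h
      · exact h ▸ hm
      · exact absurd rfl hm'
    · intro h
      exact h m (by rw [coeff_monomial, if_pos rfl]; exact one_ne_zero)
  set π := (bdy X (UI J j) 1).mkQ with hπ
  let val : (Fin n →₀ ℕ) → Fin n → _ := fun b i =>
    π (Pi.single {i} (monomial (b - Finsupp.single i 1) (1 : K)))
  have hval : ∀ b : Fin n →₀ ℕ, ∑ i, b i = j → ∀ g ∈ Ω, (∀ l, g l ≤ b l) → ∀ i k, g i < b i →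
      g k < b k → val b i = val b k := by
    intro b hb g hg hgb i k hi hk
    by_cases hik : i = k
    · rw [hik]
    obtain ⟨d, hd⟩ : ∃ d, b = g + Finsupp.single i 1 + Finsupp.single k 1 + d := by
      refine exists_add_of_le fun l => ?_
      rw [Finsupp.add_apply, Finsupp.add_apply, Finsupp.single_apply, Finsupp.single_apply]
      have := hgb l
      split_ifs with h1 h2 h2
      · exact absurd (h1.trans h2.symm) hik
      · subst h1
        omega
      · subst h2
        omega
      · omega
    have hu : (monomial (g + d) (1 : K) : MvPolynomial (Fin n) K) ∈ UI J j (1 + 1) := by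
      refine mem_UI.2 ⟨mem_W0.2 fun m hm => ?_, ?_⟩
      · rw [coeff_monomial] at hm
        split_ifs at hm with h
        · rw [hd, sum_add', sum_add', sum_add', sum_single', sum_single'] at hb
          rw [← h, sum_add']
          omega
        · exact absurd rfl hm
      · have h1 := J.mul_mem_right (monomial d (1 : K)) ((hmon g).1 hg)
        rwa [monomial_mul, one_mul] at h1
    have h1 := edge_mem i k hu
    have h2 : ∀ l, (X l : MvPolynomial (Fin n) K) * monomial (g + d) 1 =
        monomial (Finsupp.single l 1 + (g + d)) 1 := fun l => by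
      rw [X, monomial_mul, one_mul]
    have h3 : b - Finsupp.single k 1 = Finsupp.single i 1 + (g + d) := by
      rw [tsub_eq_of_eq_add]
      rw [hd]
      abel
    have h4 : b - Finsupp.single i 1 = Finsupp.single k 1 + (g + d) := by
      rw [tsub_eq_of_eq_add]
      rw [hd]
      abel
    rw [h2, h2, ← h3, ← h4] at h1
    exact ((Submodule.Quotient.eq _).2 h1).symm
  let Φ : MvPolynomial (Fin n) K →ₗ[K] _ := (basisMonomials (Fin n) K).constr K fun b =>
    if h : ∃ i, ∃ m ∈ Ω, b = m + Finsupp.single i 1 then val b h.choose else 0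
  have hΦ : ∀ (i : Fin n), ∀ m ∈ Ω, ∑ l, m l + 1 = j →
      π (Pi.single {i} (monomial m (1 : K))) = Φ (X i * monomial m 1) := by
    intro i m hm hd
    have h1 : (X i : MvPolynomial (Fin n) K) * monomial m 1 =
        basisMonomials (Fin n) K (m + Finsupp.single i 1) := by
      rw [X, monomial_mul, one_mul, add_comm, coe_basisMonomials]
    have h2 : ∃ k, ∃ m' ∈ Ω, m + Finsupp.single i 1 = m' + Finsupp.single k 1 := ⟨i, m, hm, rfl⟩
    rw [h1, Basis.constr_basis, dif_pos h2]
    obtain ⟨m', hm', h3⟩ := h2.choose_spec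
    have hb : ∑ l, (m + Finsupp.single i 1 : Fin n →₀ ℕ) l = j := by
      rw [sum_add', sum_single', hd]
    rw [← hconn _ hb (val _) (hval _ hb) i _ m m' hm hm' rfl h3]
    change _ = π (Pi.single {i} (monomial (m + Finsupp.single i 1 - Finsupp.single i 1) (1 : K)))
    rw [add_tsub_cancel_right]
  have hΦ2 : ∀ (i : Fin n), ∀ g ∈ UI J j 1, π (Pi.single {i} g) = Φ (X i * g) := by
    intro i g hg
    have h1 : ∀ y, π (Pi.single {i} y) =
        (π ∘ₗ LinearMap.single K (fun _ => MvPolynomial (Fin n) K) {i}) y := fun _ => rfl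
    rw [h1, g.as_sum, map_sum, Finset.mul_sum, map_sum]
    refine Finset.sum_congr rfl fun m hm => ?_
    have h2 := MvPolynomial.mem_support_iff.1 hm
    have h3 : (monomial m (coeff m g) : MvPolynomial (Fin n) K) = coeff m g • monomial m 1 := by
      rw [smul_monomial, smul_eq_mul, mul_one]
    rw [h3, map_smul, mul_smul_comm, map_smul, ← h1,
      hΦ i m ((hJ g).1 (mem_UI.1 hg).2 m h2) (mem_W0.1 (mem_UI.1 hg).1 m h2)]
  rintro z ⟨hz, hz'⟩
  have h1 : z = ∑ i, Pi.single {i} (z {i}) := by
    funext s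
    rw [Finset.sum_apply]
    by_cases hs : s.card = 1
    · obtain ⟨k, rfl⟩ := Finset.card_eq_one.1 hs
      rw [Finset.sum_eq_single k, Pi.single_eq_same]
      · intro l _ hl
        exact Pi.single_eq_of_ne (fun h => hl (Finset.singleton_injective h).symm) _
      · intro h
        exact absurd (Finset.mem_univ k) h
    · rw [hz.1 s hs]
      exact (Finset.sum_eq_zero fun l _ =>
        Pi.single_eq_of_ne (fun h => hs (by rw [h]; rfl)) _).symm
  have h2 : π z = 0 := by
    rw [h1, map_sum, Finset.sum_congr rfl fun i _ => hΦ2 i _ (hz.2 _), ← map_sum, ← kd_empty]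
    have h3 : kd X z = 0 := hz'
    rw [h3]
    exact map_zero Φ
  exact (Submodule.Quotient.mk_eq_zero _).1 h2

/-- **Gotzmann's persistence theorem over complete intersections** -/
theorem persist (h : c ≤ n) (a : Fin c → ℕ)
    (ha : Monotone a) (h2 : ∀ i, 2 ≤ a i) (f : Fin c → MvPolynomial (Fin n) K)
    (hf : ∀ i, (f i).IsHomogeneous (a i)) (hreg : IsRegularSeq f)
    (I : Ideal (MvPolynomial (Fin n) K)) (hI : HomIdeal I) (hfI : ∀ i, f i ∈ I)
    (J : Ideal (MvPolynomial (Fin n) K)) (hJ : J.restrictScalars K = lexPlusPowers h a I)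
    (q τ : ℕ) (hτ : 1 ≤ τ) (haτ : ∀ i, a i ≤ τ)
    (hIq : ∀ e, q < e → ∀ g ∈ I, g.IsHomogeneous e →
      g ∈ Ideal.span (Set.range (X : Fin n → MvPolynomial (Fin n) K)) * I)
    (hJq : ∀ e, q < e → e ≤ q + τ → ∀ g ∈ J, g.IsHomogeneous e →
      g ∈ Ideal.span (Set.range (X : Fin n → MvPolynomial (Fin n) K)) * J) :
    ∀ e, q < e → ∀ g ∈ J, g.IsHomogeneous e →
      g ∈ Ideal.span (Set.range (X : Fin n → MvPolynomial (Fin n) K)) * J := by
  classical
  have hpos : ∀ i, 1 ≤ a i := fun i => le_trans one_le_two (h2 i)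
  obtain ⟨hJ1, -, -⟩ := lexPlusPowers_spec h a hpos f hf hreg I hI hfI J hJ
  have hmem : ∀ g, g ∈ J ↔ ∀ m, coeff m g ≠ 0 → m ∈ lppSet K h a I := by
    intro g
    rw [← L.mem_restrictSupport_iff, ← lexPlusPowers_eq, ← hJ]
    rfl
  obtain ⟨s, hs0, hs⟩ := P200.H710.exists_cancel K h a ha h2 f hf hreg I hI hfI J hJ
  simp only [B.bettiNumber_eq] at hs
  intro j
  induction j using Nat.strong_induction_on with
  | _ j ih =>
    intro hqj
    by_cases hj : j ≤ q + τ
    · exact hJq j hqj hj
    have hj0 : 0 < j := by omega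
    rw [← betti_one_iff hJ1 hj0]
    have e1 := (betti_one_iff hI hj0).2 (hIq j hqj)
    have e0 := (betti_UI J hj0).2
    have e2 : betti J 2 j = 0 := by
      refine betti_two (lppSet K h a I) hmem hj0 fun b hb val hval i k m m' hm hm' hi hk => ?_
      refine conn h a (lppSet K h a I) q τ hτ haτ (fun s => Or.inl ⟨s, ?_⟩) ?_ b (by omega) ?_
        val hval hm hm' hi hk
      · rw [Finsupp.single_eq_same]
      · intro m m' h1 h3 h4 h5
        have h6 : m' ∈ lexSet h a q (qdim h a I q) := by
          rw [← lppSet_inter]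
          exact ⟨h1, h3.2⟩
        have h7 := lexSet_up h a h4 h5 h6 h3
        rw [← lppSet_inter] at h7
        exact h7.1
      · intro m hm h1 h3
        have h4 : (monomial m (1 : K) : MvPolynomial (Fin n) K) ∈ J := by
          rw [hmem]
          intro m' hm'
          rw [coeff_monomial] at hm'
          split_ifs at hm' with h
          · exact h ▸ hm
          · exact absurd rfl hm'
        obtain ⟨u, hu, hu'⟩ := mem_irr_mul (ih _ (by omega) h1 _ h4
          (isHomogeneous_monomial _ (Finsupp.degree_eq_sum m)))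
        have h5 : coeff m (∑ i, X i * u i) ≠ 0 := by
          rw [← hu', coeff_monomial, if_pos rfl]
          exact one_ne_zero
        rw [coeff_sum] at h5
        obtain ⟨i, -, hi⟩ := Finset.exists_ne_zero_of_sum_ne_zero h5
        obtain ⟨m', h6, h7⟩ := coeff_X_mul_ne hi
        exact ⟨i, m', (hmem _).1 (hu i) m' h6, h7⟩
    have e3 := hs 0 j
    have e4 := hs 1 j
    have e5 := hs 2 j
    have e6 : s (0 + 1) j = s 1 j := rfl
    have e7 : s (1 + 1) j = s 2 j := rfl
    omega

end Vale.Agent.N200
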