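import Vale.Agent.N200.Tor
import Vale.Agent.N200.Ex
import Vale.Agent.N200.Pers
import Vale.Agent.N200.Green

set_option linter.all false

namespace Vale.Agent.N200

open MvPolynomial Module Vale.Agent.P200F Vale.Agent.P200F.B Vale.Agent.P200F.G
  Vale.Agent.P200F.L

universe u

variable {K : Type u} [Field K] {n c : ℕ}

theorem lexGT_iff' (e e' : Fin n →₀ ℕ) :
    lexGT e' e ↔ toLex (e : Fin n → ℕ) < toLex (e' : Fin n → ℕ) := by
  constructor
  · rintro ⟨i, h1, h2⟩
    exact ⟨i, fun j hj => (h2 j hj).symm, h1⟩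
  · rintro ⟨i, h1, h2⟩
    exact ⟨i, h2, fun j hj => (h1 j hj).symm⟩

theorem lexPP_eq (h : c ≤ n) (a : Fin c → ℕ) (I : Ideal (MvPolynomial (Fin n) K)) :
    lexPP h a I = lexPlusPowers h a I := by
  unfold lexPP lexPlusPowers lexPart
  simp only [lexGT_iff']
  rfl

theorem card_le_of_fibers {r r' : ℕ} (δ : Fin r → ℕ) (δ' : Fin r' → ℕ)
    (h : ∀ j, (Finset.univ.filter fun i => δ i = j).card ≤
      (Finset.univ.filter fun i => δ' i = j).card) : r ≤ r' := by
  classical
  set T := Finset.univ.image δ ∪ Finset.univ.image δ' with hT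
  have h1 := Finset.card_eq_sum_card_fiberwise (s := Finset.univ) (t := T) (f := δ)
    fun i _ => Finset.mem_union_left _ (Finset.mem_image_of_mem _ (Finset.mem_univ i))
  have h2 := Finset.card_eq_sum_card_fiberwise (s := Finset.univ) (t := T) (f := δ')
    fun i _ => Finset.mem_union_right _ (Finset.mem_image_of_mem _ (Finset.mem_univ i))
  rw [Finset.card_univ, Fintype.card_fin] at h1 h2
  rw [h1, h2]
  exact Finset.sum_le_sum fun j _ => h j

theorem ncard_eq {r : ℕ} (δ : Fin r → ℕ) (j : ℕ) :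
    {i | δ i = j}.ncard = (Finset.univ.filter fun i => δ i = j).card := by
  rw [← Set.ncard_coe_finset]
  congr 1
  ext i
  simp

/-- homogenization of the open condition -/
theorem homog_open [Infinite K] (Φ : MvPolynomial (Fin n) K) (hΦ : Φ ≠ 0) :
    ∃ Ψ : MvPolynomial (Fin (n + 1)) K, Ψ ≠ 0 ∧ ∀ u, eval u Ψ ≠ 0 → u (Fin.last n) ≠ 0 ∧
      eval (fun j => -u j.castSucc / u (Fin.last n)) Φ ≠ 0 := by
  classical
  set Ψ : MvPolynomial (Fin (n + 1)) K := X (Fin.last n) * ∑ m ∈ Φ.support, C (coeff m Φ) *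
    ((∏ j, (-X j.castSucc) ^ m j) * X (Fin.last n) ^ (Φ.totalDegree - ∑ j, m j)) with hΨ
  have key : ∀ u : Fin (n + 1) → K, u (Fin.last n) ≠ 0 → eval u Ψ = u (Fin.last n) *
      (u (Fin.last n) ^ Φ.totalDegree * eval (fun j => -u j.castSucc / u (Fin.last n)) Φ) := by
    intro u hu
    rw [hΨ, map_mul, eval_X, map_sum, eval_eq' _ Φ]
    congr 1
    rw [Finset.mul_sum]
    refine Finset.sum_congr rfl fun m hm => ?_
    have h1 := le_totalDegree hm
    rw [Finsupp.sum_fintype _ _ (fun _ => rfl)] at h1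
    obtain ⟨t, ht⟩ := Nat.exists_eq_add_of_le h1
    simp only [map_mul, map_prod, map_pow, map_neg, eval_C, eval_X, div_pow,
      Finset.prod_div_distrib, Finset.prod_pow_eq_pow_sum]
    rw [ht, Nat.add_sub_cancel_left, pow_add]
    field_simp
  refine ⟨Ψ, fun h0 => hΦ (MvPolynomial.funext fun cc => ?_), fun u hu => ?_⟩
  · have h1 := key (Fin.snoc (α := fun _ => K) (fun j => -cc j) 1) (by simp)
    rw [h0] at h1
    simpa using h1.symm
  · have h1 : u (Fin.last n) ≠ 0 := fun h => hu (by rw [hΨ, map_mul, eval_X, h, zero_mul])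
    refine ⟨h1, fun h => hu ?_⟩
    rw [key u h1, h, mul_zero, mul_zero]

theorem green' [CharZero K] (h : c ≤ n) (a : Fin c → ℕ)
    (ha : Monotone a) (h2 : ∀ i, 2 ≤ a i) (f : Fin c → MvPolynomial (Fin n) K)
    (hf : ∀ i, (f i).IsHomogeneous (a i)) (hreg : IsRegularSeq f)
    (I : Ideal (MvPolynomial (Fin n) K)) (hI : HomIdeal I) (hfI : ∀ i, f i ∈ I)
    (J : Ideal (MvPolynomial (Fin n) K)) (hJ : J.restrictScalars K = lexPlusPowers h a I)
    (z : Fin n) (hz : ∀ i, i ≤ z) (hc : c ≤ z) :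
    ∃ Φ : MvPolynomial (Fin n) K, Φ ≠ 0 ∧ ∀ u : Fin n → K, eval u Φ ≠ 0 → ∀ d,
      finrank K (part (J ⊔ Ideal.span {X z}) d) ≤
        finrank K (part (I ⊔ Ideal.span {∑ i, C (u i) * X i}) d) := by
  obtain ⟨n, rfl⟩ : ∃ m, n = m + 1 := ⟨n - 1, by have := z.2; omega⟩
  obtain rfl : z = Fin.last n := le_antisymm (Fin.le_last z) (hz _)
  have hc' : c ≤ n := hc
  obtain ⟨Φ, h0, h1⟩ := green hc' h a ha h2 f hf hreg I hI hfI J hJ
  obtain ⟨Ψ, h3, h4⟩ := homog_open Φ h0
  refine ⟨Ψ, h3, fun u hu d => ?_⟩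
  obtain ⟨h5, h6⟩ := h4 u hu
  have h7 : (∑ i, C (u i) * X i : MvPolynomial (Fin (n + 1)) K) =
      C (u (Fin.last n)) * gen_l fun j => -u j.castSucc / u (Fin.last n) := by
    rw [gen_l_eq, Fin.sum_univ_castSucc, mul_sub, Finset.mul_sum, sub_eq_add_neg,
      ← Finset.sum_neg_distrib, add_comm (C _ * X _)]
    congr 1
    refine Finset.sum_congr rfl fun j _ => ?_
    rw [← mul_assoc, ← C_mul, ← neg_mul, ← C_neg]
    congr 2
    field_simp
  rw [h7, Ideal.span_singleton_mul_left_unit ((isUnit_iff_ne_zero.2 h5).map C)]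
  exact h1 _ h6 d

theorem finrank_span_fin {V : Type*} [AddCommGroup V] [Module K V] {r : ℕ} (v : Fin r → V) :
    finrank K (Submodule.span K (Set.range v)) ≤ r := by
  have h := finrank_range_le_card (R := K) v
  rw [Fintype.card_fin] at h
  exact h

theorem fail_up (q : ℕ) (hp : (q + 1).Prime) [CharP K (q + 1)] (u : Fin 3 → K) :
    finrank K (piece (Ideal.span (Set.range fun i => (X i : MvPolynomial (Fin 3) K) ^ (q + 1)) ⊔
        Ideal.span {∑ i, C (u i) * X i}) (q + 1)) ≤
      finrank K (homogeneousSubmodule (Fin 3) K q) + 2 := by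
  classical
  haveI := Fact.mk hp
  have hlh : (∑ i, C (u i) * X i : MvPolynomial (Fin 3) K).IsHomogeneous 1 :=
    gen_lin_isHomogeneous u
  have h6 : (∑ i, C (u i) * X i : MvPolynomial (Fin 3) K) ^ (q + 1) =
      ∑ j, u j ^ (q + 1) • X j ^ (q + 1) := by
    rw [sum_pow_char]
    exact Finset.sum_congr rfl fun j _ => by rw [mul_pow, ← C_pow, smul_eq_C_mul]
  have h0 : (∀ k, u k = 0) → (∑ i, C (u i) * X i : MvPolynomial (Fin 3) K) = 0 := fun hu => by
    simp [hu]
  generalize (∑ i, C (u i) * X i : MvPolynomial (Fin 3) K) = l at hlh h6 h0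
  have hXp : ∀ i, (X i ^ (q + 1) : MvPolynomial (Fin 3) K).IsHomogeneous (q + 1) := fun i =>
    isHomogeneous_X_pow i _
  have hSq1 : 1 ≤ finrank K (homogeneousSubmodule (Fin 3) K q) := by
    have h1 := card_le_finrank (ι := Unit) (v := fun _ => (X 0 ^ q : MvPolynomial (Fin 3) K))
      (linearIndependent_unique_iff.2 (pow_ne_zero _ (X_ne_zero _)))
      (homogeneousSubmodule (Fin 3) K q) fun _ => isHomogeneous_X_pow _ _
    simpa using h1
  have hup : ∀ W : Submodule K (MvPolynomial (Fin 3) K), (∀ i, X i ^ (q + 1) ∈ W) →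
      (∀ g ∈ homogeneousSubmodule (Fin 3) K q, l * g ∈ W) →
      piece (Ideal.span (Set.range fun i => (X i : MvPolynomial (Fin 3) K) ^ (q + 1)) ⊔
        Ideal.span {l}) (q + 1) ≤ W := by
    intro W h1 h2
    rw [← Ideal.span_union]
    refine piece_span_le ?_
    rintro _ (⟨i, rfl⟩ | rfl) w
    · rw [comp_zero_mul w (hXp i)]
      exact W.smul_mem _ (h1 i)
    · rw [mul_comm, comp_mul_add hlh]
      exact h2 _ (homogeneousComponent_isHomogeneous _ _)
  by_cases hu : ∃ k, u k ≠ 0
  · obtain ⟨k, hk⟩ := hu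
    obtain ⟨W1, hW1⟩ : ∃ W, W = (homogeneousSubmodule (Fin 3) K q).map (LinearMap.mulLeft K l) :=
      ⟨_, rfl⟩
    obtain ⟨W2, hW2⟩ : ∃ W, W = Submodule.span K (Set.range fun i : Fin 2 =>
      (X (k.succAbove i) ^ (q + 1) : MvPolynomial (Fin 3) K)) := ⟨_, rfl⟩
    haveI : Module.Finite K W1 := hW1 ▸ inferInstance
    haveI : Module.Finite K W2 := hW2 ▸ Module.Finite.span_of_finite K (Set.finite_range _)
    have h1 : finrank K W2 ≤ 2 := hW2 ▸ finrank_span_fin _
    have h2 : finrank K W1 ≤ finrank K (homogeneousSubmodule (Fin 3) K q) :=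
      hW1 ▸ Submodule.finrank_map_le _ _
    have h4 : ∀ i, X (k.succAbove i) ^ (q + 1) ∈ W1 ⊔ W2 := fun i =>
      Submodule.mem_sup_right (hW2 ▸ Submodule.subset_span ⟨i, rfl⟩)
    have h9 : ∀ g ∈ homogeneousSubmodule (Fin 3) K q, l * g ∈ W1 ⊔ W2 := fun g hg =>
      Submodule.mem_sup_left (hW1 ▸ ⟨g, hg, rfl⟩)
    refine (Submodule.finrank_mono (hup (W1 ⊔ W2) (fun i => ?_) h9)).trans
      ((Submodule.finrank_add_le_finrank_add_finrank W1 W2).trans (add_le_add h2 h1))
    rcases eq_or_ne i k with rfl | hi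
    · have h7 := h9 (l ^ q) (by
        have h8 := hlh.pow q
        rwa [one_mul] at h8)
      rw [← pow_succ', h6, Fin.sum_univ_succAbove _ i] at h7
      have h8 := (Submodule.add_mem_iff_left _
        (Submodule.sum_mem _ fun j _ => Submodule.smul_mem _ _ (h4 j))).1 h7
      exact (Submodule.smul_mem_iff _ (pow_ne_zero _ hk)).1 h8
    · obtain ⟨j, rfl⟩ := Fin.exists_succAbove_eq hi
      exact h4 j
  · push Not at hu
    haveI : Module.Finite K (Submodule.span K (Set.range fun i : Fin 3 =>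
      (X i ^ (q + 1) : MvPolynomial (Fin 3) K))) :=
      Module.Finite.span_of_finite K (Set.finite_range _)
    have h1 := hup (Submodule.span K (Set.range fun i : Fin 3 =>
      (X i ^ (q + 1) : MvPolynomial (Fin 3) K))) (fun i => Submodule.subset_span ⟨i, rfl⟩)
      fun g _ => by rw [h0 hu, zero_mul]; exact Submodule.zero_mem _
    have h2 := finrank_span_fin (K := K) fun i : Fin 3 => (X i ^ (q + 1) : MvPolynomial (Fin 3) K)
    have h3 := Submodule.finrank_mono h1
    omega

theorem fail_lpp (q : ℕ) (hq : 1 ≤ q) (k : ℕ) (hk : k = 0 ∨ k = 1 ∨ k = q + 1) :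
    sn (Finsupp.single (0 : Fin 2) (q + 1 - k) + Finsupp.single 1 k) 0 ∈
      lppSet K (Nat.le_succ 2) (fun _ => q + 1)
        (Ideal.span (Set.range fun i => (X i : MvPolynomial (Fin 3) K) ^ (q + 1))) := by
  classical
  have h00 : ∀ k : ℕ, sn (Finsupp.single (0 : Fin 2) (q + 1 - k) + Finsupp.single 1 k) 0
      (Fin.castLE (Nat.le_succ 2) 0) = q + 1 - k := fun k => by
    rw [sn_castLE le_rfl]
    simp
  have h01 : ∀ k : ℕ, sn (Finsupp.single (0 : Fin 2) (q + 1 - k) + Finsupp.single 1 k) 0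
      (Fin.castLE (Nat.le_succ 2) 1) = k := fun k => by
    rw [sn_castLE le_rfl]
    simp
  rcases hk with rfl | rfl | rfl
  · exact Or.inl ⟨0, by rw [h00]; exact le_rfl⟩
  · refine Or.inr ⟨⟨?_, rfl⟩, ?_⟩
    · rw [Fin.forall_fin_two, h00, h01]
      beta_reduce
      omega
    · have hsum : ∑ i, sn (Finsupp.single (0 : Fin 2) (q + 1 - 1) + Finsupp.single 1 1) 0 i =
          q + 1 := by
        rw [lex_sum_sn, sum_add', sum_single', sum_single']
        omega
      rw [hsum]
      have h1 : {e' | e' ∈ outside (Nat.le_succ 2) (fun _ => q + 1) (q + 1) ∧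
          lexGT e' (sn (Finsupp.single (0 : Fin 2) (q + 1 - 1) + Finsupp.single 1 1) 0)} = ∅ := by
        rw [Set.eq_empty_iff_forall_notMem]
        rintro e ⟨⟨h1, h2⟩, i, h3, h4⟩
        have a0 : e 0 < q + 1 := h1 0
        have b0 : sn (Finsupp.single (0 : Fin 2) (q + 1 - 1) + Finsupp.single 1 1) 0 0 =
          q + 1 - 1 := h00 1
        have b1 : sn (Finsupp.single (0 : Fin 2) (q + 1 - 1) + Finsupp.single 1 1) 0 1 = 1 :=
          h01 1
        have b2 : sn (Finsupp.single (0 : Fin 2) (q + 1 - 1) + Finsupp.single 1 1) 0 2 = 0 :=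
          sn_last _ _
        have h5 : e 0 + e 1 + e 2 = q + 1 := (Fin.sum_univ_three e).symm.trans h2
        have c0 := h4 0
        have c1 := h4 1
        have hi : i = 0 ∨ i = 1 ∨ i = 2 :=
          (by decide : ∀ i : Fin 3, i = 0 ∨ i = 1 ∨ i = 2) i
        rcases hi with rfl | rfl | rfl
        · omega
        · have := c0 (by decide)
          omega
        · have := c0 (by decide)
          have := c1 (by decide)
          omega
      rw [h1, Set.ncard_empty, qdim, Nat.sub_pos_iff_lt]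
      haveI : Module.Finite K (degPart
          (Ideal.span (Set.range fun i => (X i : MvPolynomial (Fin 3) K) ^ (q + 1))) (q + 1)) :=
        Submodule.finiteDimensional_of_le (G.piece_le _ _)
      refine Submodule.finrank_lt_finrank_of_lt (lt_of_le_of_ne (piece_mono ?_ _) fun h => ?_)
      · rw [powerIdeal, Ideal.span_le]
        rintro _ ⟨i, rfl⟩
        exact Ideal.subset_span ⟨_, rfl⟩
      · have h2 : (X 2 ^ (q + 1) : MvPolynomial (Fin 3) K) ∈ degPart
            (Ideal.span (Set.range fun i => (X i : MvPolynomial (Fin 3) K) ^ (q + 1))) (q + 1) :=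
          ⟨Ideal.subset_span ⟨2, rfl⟩, isHomogeneous_X_pow _ _⟩
        rw [← h, degPart_powerIdeal, L.mem_restrictSupport_iff] at h2
        obtain ⟨⟨i, hi⟩, -⟩ := h2 (Finsupp.single 2 (q + 1)) (by
          rw [X_pow_eq_monomial, coeff_monomial, if_pos rfl]
          exact one_ne_zero)
        rw [Finsupp.single_eq_of_ne (by
          intro h3
          have h4 := congrArg Fin.val h3
          have h5 := i.2
          simp at h4
          omega)] at hi
        exact absurd hi (by simp)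
  · exact Or.inl ⟨1, by rw [h01]⟩

theorem rho_zero_monomial (m : Fin n →₀ ℕ) :
    rho (0 : Fin n → K) (monomial (sn m 0) 1) = monomial m 1 := by
  classical
  rw [← gen_coeff_zero, gen_phi_eq]
  have h0 : (∑ j, C ((0 : Fin n → K) j) * X j : MvPolynomial (Fin n) K) = 0 := by simp
  rw [h0, Polynomial.taylor_zero']
  ext m'
  refine (coeff_coeff_eE _ m' 0).trans ?_
  rw [coeff_monomial, coeff_monomial]
  exact if_congr ⟨fun h => (sn_injective h).1, fun h => by rw [h]⟩ rfl rfl

theorem fail_low (q : ℕ) (hq : 1 ≤ q) (J : Ideal (MvPolynomial (Fin (2 + 1)) K))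
    (hJ : ∀ k, k = 0 ∨ k = 1 ∨ k = q + 1 → (monomial
      (sn (Finsupp.single (0 : Fin 2) (q + 1 - k) + Finsupp.single 1 k) 0) (1 : K)) ∈ J) :
    finrank K (homogeneousSubmodule (Fin (2 + 1)) K q) + 3 ≤
      finrank K (piece (J ⊔ Ideal.span {X (Fin.last 2)}) (q + 1)) := by
  classical
  obtain ⟨V, hV⟩ : ∃ V, V = piece (J ⊔ Ideal.span {X (Fin.last 2)}) (q + 1) := ⟨_, rfl⟩
  rw [← hV]
  haveI : Module.Finite K V := hV ▸ Submodule.finiteDimensional_of_le (G.piece_le _ _)
  have e2 := finrank_map_add (rho (0 : Fin 2 → K)).toLinearMap V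
  have hr2 : rho (0 : Fin 2 → K) (X (Fin.last 2)) = 0 := by
    rw [gen_rho_last]
    simp
  have e3 : finrank K (homogeneousSubmodule (Fin (2 + 1)) K q) ≤
      finrank K ↥(V ⊓ LinearMap.ker (rho (0 : Fin 2 → K)).toLinearMap) := by
    rw [← B.finrank_map_of_inj (LinearMap.mulLeft K (X (Fin.last 2))) _
      fun w _ hw => (mul_eq_zero.1 hw).resolve_left (X_ne_zero _)]
    refine Submodule.finrank_mono ?_
    rintro _ ⟨g, hg, rfl⟩
    refine ⟨hV ▸ ⟨Ideal.mem_sup_right (Ideal.mul_mem_right _ _ (Ideal.subset_span rfl)), ?_⟩, ?_⟩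
    · have h1 := (isHomogeneous_X K (Fin.last 2)).mul hg
      rw [add_comm 1 q] at h1
      exact h1
    · have h1 : rho (0 : Fin 2 → K) (X (Fin.last 2) * g) = 0 := by rw [map_mul, hr2, zero_mul]
      exact h1
  have e4 : 3 ≤ finrank K (V.map (rho (0 : Fin 2 → K)).toLinearMap) := by
    let kk : Fin 3 → ℕ := ![0, 1, q + 1]
    have hk : ∀ i, kk i = 0 ∨ kk i = 1 ∨ kk i = q + 1 := by
      intro i
      fin_cases i <;> simp [kk]
    have hinj : Function.Injective fun i : Fin 3 =>
        (Finsupp.single (0 : Fin 2) (q + 1 - kk i) + Finsupp.single 1 (kk i) : Fin 2 →₀ ℕ) := by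
      intro i j hij
      have h1 := DFunLike.congr_fun hij 1
      simp at h1
      fin_cases i <;> fin_cases j <;> simp [kk] at h1 ⊢ <;> omega
    have h1 := card_le_finrank ((basisMonomials (Fin 2) K).linearIndependent.comp _ hinj)
      (V.map (rho (0 : Fin 2 → K)).toLinearMap) fun i => by
        refine ⟨monomial (sn _ 0) 1, hV ▸ ⟨Ideal.mem_sup_left (hJ _ (hk i)),
          isHomogeneous_monomial _ ((Finsupp.degree_eq_sum _).trans ?_)⟩, rho_zero_monomial _⟩
        rw [lex_sum_sn, sum_add', sum_single', sum_single']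
        rcases hk i with h | h | h <;> omega
    simpa using h1
  omega

/-- the restriction theorem fails in positive characteristic -/
theorem green_fails (p : ℕ) (hp : p.Prime) [CharP K p] (J : Ideal (MvPolynomial (Fin 3) K))
    (hJ : J.restrictScalars K = lexPlusPowers (Nat.le_succ 2) (fun _ => p)
      (Ideal.span (Set.range fun i => (X i : MvPolynomial (Fin 3) K) ^ p))) (u : Fin 3 → K) :
    finrank K (part (Ideal.span (Set.range fun i => (X i : MvPolynomial (Fin 3) K) ^ p) ⊔
        Ideal.span {∑ i, C (u i) * X i}) p) <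
      finrank K (part (J ⊔ Ideal.span {X 2}) p) := by
  classical
  obtain ⟨q, rfl⟩ : ∃ q, p = q + 1 := ⟨p - 1, by have := hp.pos; omega⟩
  have hq : 1 ≤ q := by have := hp.two_le; omega
  have e1 := fail_up q hp u
  have e2 := fail_low q hq J fun k hk => by
    have h1 : (monomial (sn (Finsupp.single (0 : Fin 2) (q + 1 - k) + Finsupp.single 1 k) 0)
        (1 : K) : MvPolynomial (Fin 3) K) ∈ J.restrictScalars K := by
      rw [hJ, lexPlusPowers_eq, L.mem_restrictSupport_iff]
      intro m' hm'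
      rw [coeff_monomial] at hm'
      split_ifs at hm' with h
      · exact h ▸ fail_lpp q hq k hk
      · exact absurd rfl hm'
    exact h1
  exact lt_of_le_of_lt e1 (lt_of_lt_of_le (Nat.lt_succ_self _) e2)

theorem exists_fail (p : ℕ) (hp : p.Prime) [CharP K p] :
    ∃ J : Ideal (MvPolynomial (Fin 3) K), J.restrictScalars K = lexPP (Nat.le_succ 2) (fun _ => p)
      (Ideal.span (Set.range fun i => (X i : MvPolynomial (Fin 3) K) ^ p)) ∧ ∀ u : Fin 3 → K,
    finrank K (part (Ideal.span (Set.range fun i => (X i : MvPolynomial (Fin 3) K) ^ p) ⊔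
        Ideal.span {∑ i, C (u i) * X i}) p) <
      finrank K (part (J ⊔ Ideal.span {X 2}) p) := by
  have hreg : IsRegularSeq fun i : Fin 2 =>
      (X (Fin.castLE (Nat.le_succ 2) i) ^ p : MvPolynomial (Fin 3) K) := by
    rw [IsRegularSeq, Fin.forall_fin_two]
    constructor
    · intro g hg
      have h0 : {j : Fin 2 | j < 0} = ∅ := by
        ext j
        simp
      rw [h0, Set.image_empty, Ideal.span_empty, Ideal.mem_bot] at hg ⊢
      exact (mul_eq_zero.1 hg).resolve_left (pow_ne_zero _ (X_ne_zero _))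
    · intro g hg
      have h0 : {j : Fin 2 | j < 1} = {0} := by
        ext j
        fin_cases j <;> simp
      rw [h0, Set.image_singleton, Ideal.mem_span_singleton] at hg ⊢
      refine X_prime.pow_dvd_of_dvd_mul_left p (fun h => ?_) hg
      have h1 := X_dvd_X.1 (X_prime.dvd_of_dvd_pow h)
      exact absurd h1 (by decide)
  have hI : HomIdeal (Ideal.span (Set.range fun i => (X i : MvPolynomial (Fin 3) K) ^ p)) :=
    homIdeal_span (by
      rintro _ ⟨i, rfl⟩
      exact ⟨p, isHomogeneous_X_pow i p⟩)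
  obtain ⟨J, hJ, -⟩ := P200F.V.lpp K (Nat.le_succ 2) (fun _ => p) monotone_const
    (fun _ => hp.two_le) _ (fun i => isHomogeneous_X_pow _ p) hreg _ hI
    fun i => Ideal.subset_span ⟨_, rfl⟩
  exact ⟨J, hJ.trans (lexPP_eq _ _ _).symm, green_fails p hp J hJ⟩

end Vale.Agent.N200
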