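import Vale.Agent.N200.Main

/-!
The Eisenbud-Green-Harris and lex-plus-powers conjectures with minimal free resolutions, and the
theorems of Gotzmann and Green over complete intersections.
-/

namespace Vale.Agent.N200.OldGotzmannGreen

open MvPolynomial Module Vale.Agent.N200

universe u

/-- (1) `J` is an ideal with the Hilbert function of `I`. (2) The graded Betti numbers of `S / I`
are at most those of `S / J`. (3) Persistence: if `I` is generated in degrees `≤ q` and `J` has no
generator in the degrees `q + 1, …, q + τ`, then `J` is generated in degrees `≤ q`.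
(4) Restriction to a general hyperplane in characteristic zero. (5) It fails in characteristic `p`. -/
theorem withdrawn (K : Type u) [Field K] :
    (∀ (n c : ℕ) (h : c ≤ n) (a : Fin c → ℕ), Monotone a → (∀ i, 2 ≤ a i) →
      ∀ f : Fin c → MvPolynomial (Fin n) K, (∀ i, (f i).IsHomogeneous (a i)) →
      (∀ i g, f i * g ∈ Ideal.span (f '' {j | j < i}) → g ∈ Ideal.span (f '' {j | j < i})) →
      ∀ I : Ideal (MvPolynomial (Fin n) K), (∀ g ∈ I, ∀ d, homogeneousComponent d g ∈ I) →
      (∀ i, f i ∈ I) →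
      ∃ J : Ideal (MvPolynomial (Fin n) K),
        -- (1)
        (J.restrictScalars K = lexPP h a I ∧
          ∀ d, finrank K (part J d) = finrank K (part I d)) ∧
        -- (2)
        ((∃ r δ A, IsMinRes I r δ A) ∧ (∃ r δ A, IsMinRes J r δ A) ∧
          ∀ r δ A r' δ' A', IsMinRes I r δ A → IsMinRes J r' δ' A' → ∀ p,
            (∀ j, {i | δ p i = j}.ncard ≤ {i | δ' p i = j}.ncard) ∧
            torDim I p = r p ∧ torDim J p = r' p ∧ r p ≤ r' p) ∧
        -- (3)
        (∀ q τ : ℕ, 1 ≤ τ → (∀ i, a i ≤ τ) → (∀ e, q < e → ¬ HasGen I e) →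
          (∀ e, q < e → e ≤ q + τ → ¬ HasGen J e) → ∀ e, q < e → ¬ HasGen J e) ∧
        -- (4)
        (CharZero K → ∀ z : Fin n, (∀ i, i ≤ z) → c ≤ z →
          ∃ Φ : MvPolynomial (Fin n) K, Φ ≠ 0 ∧ ∀ y : Fin n → K, eval y Φ ≠ 0 → ∀ d,
            finrank K (part (J ⊔ Ideal.span {X z}) d) ≤
              finrank K (part (I ⊔ Ideal.span {∑ i, C (y i) * X i}) d))) ∧
    -- (5)
    ∀ p : ℕ, p.Prime → CharP K p → ∀ I : Ideal (MvPolynomial (Fin 3) K),
      I = Ideal.span (Set.range fun i => X i ^ p) → ∃ J : Ideal (MvPolynomial (Fin 3) K),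
        J.restrictScalars K = lexPP (Nat.le_succ 2) (fun _ => p) I ∧ ∀ y : Fin 3 → K,
          finrank K (part (I ⊔ Ideal.span {∑ i, C (y i) * X i}) p) <
            finrank K (part (J ⊔ Ideal.span {X 2}) p) := by
  refine ⟨fun n c h a ha h2 f hf hreg I hI hfI => ?_, fun p hp _ I hI => ?_⟩
  · obtain ⟨J, hJ, hb⟩ := P200F.V.lpp K h a ha h2 f hf hreg I hI hfI
    obtain ⟨hJ1, -, hfin⟩ := P200F.B.lexPlusPowers_spec h a
      (fun i => le_trans one_le_two (h2 i)) f hf hreg I hI hfI J hJ
    refine ⟨J, ⟨hJ.trans (lexPP_eq h a I).symm, hfin⟩,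
      ⟨exists_minRes hI, exists_minRes hJ1, fun r δ A r' δ' A' h3 h4 p => ?_⟩,
      fun q τ h3 h4 h5 h6 e he => ?_, fun _ z hz hc => ?_⟩
    · have h5 : ∀ j, (Finset.univ.filter fun i => δ p i = j).card ≤
          (Finset.univ.filter fun i => δ' p i = j).card := fun j => by
        rw [← betti_eq_card hI h3, ← betti_eq_card hJ1 h4, ← P200F.B.bettiNumber_eq,
          ← P200F.B.bettiNumber_eq]
        exact hb p j
      exact ⟨fun j => by rw [ncard_eq, ncard_eq]; exact h5 j, finrank_tor h3 p, finrank_tor h4 p,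
        card_le_of_fibers _ _ h5⟩
    · rintro ⟨g, g1, g2, g3⟩
      refine g3 (persist h a ha h2 f hf hreg I hI hfI J hJ q τ h3 h4 (fun e he g g1 g2 => ?_)
        (fun e he he' g g1 g2 => ?_) e he g g1 g2)
      · exact not_not.1 fun g3 => h5 e he ⟨g, g1, g2, g3⟩
      · exact not_not.1 fun g3 => h6 e he he' ⟨g, g1, g2, g3⟩
    · exact green' h a ha h2 f hf hreg I hI hfI J hJ z hz hc
  · subst hI
    exact exists_fail p hp

end Vale.Agent.N200.OldGotzmannGreen
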