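import Vale.Agent.N200.Kos

set_option linter.all false

namespace Vale.Agent.N200

open MvPolynomial Module Vale.Agent.P200F Vale.Agent.P200F.B Vale.Agent.P200F.G
  Vale.Agent.P200F.L

variable {K : Type*} [Field K] {n : ℕ}

/-- the part of degree `j - e` -/
noncomputable def pjc (e j : ℕ) (g : MvPolynomial (Fin n) K) : MvPolynomial (Fin n) K :=
  if e ≤ j then homogeneousComponent (j - e) g else 0

theorem coeff_pjc (e j : ℕ) (g : MvPolynomial (Fin n) K) (m : Fin n →₀ ℕ) :
    coeff m (pjc e j g) = if ∑ i, m i + e = j then coeff m g else 0 := by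
  unfold pjc
  by_cases h : e ≤ j
  · rw [if_pos h, coeff_homogeneousComponent, Finsupp.degree_eq_sum]
    by_cases h2 : ∑ i, m i + e = j
    · rw [if_pos h2, if_pos (by omega)]
    · rw [if_neg h2, if_neg (by omega)]
  · rw [if_neg h, coeff_zero, if_neg (by omega)]

theorem pjc_mem {I : Ideal (MvPolynomial (Fin n) K)} (hI : HomIdeal I) (e j : ℕ)
    {g : MvPolynomial (Fin n) K} (hg : g ∈ I) : pjc e j g ∈ I := by
  unfold pjc
  split_ifs
  · exact hI g hg _
  · exact I.zero_mem

theorem pjc_sum {ι : Type*} (s : Finset ι) (e j : ℕ) (g : ι → MvPolynomial (Fin n) K) :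
    pjc e j (∑ k ∈ s, g k) = ∑ k ∈ s, pjc e j (g k) := by
  unfold pjc
  split_ifs
  · rw [map_sum]
  · simp

theorem pjc_sub (e j : ℕ) (g g' : MvPolynomial (Fin n) K) :
    pjc e j (g - g') = pjc e j g - pjc e j g' := by
  unfold pjc
  split_ifs
  · rw [map_sub]
  · simp

theorem pjc_self {e j : ℕ} {g : MvPolynomial (Fin n) K}
    (hg : ∀ m, coeff m g ≠ 0 → ∑ i, m i + e = j) : pjc e j g = g := by
  ext m
  rw [coeff_pjc]
  split_ifs with h
  · rfl
  · by_contra h2
    exact h (hg m fun h3 => h2 h3.symm)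

theorem hom_iff {g : MvPolynomial (Fin n) K} {d : ℕ} :
    g.IsHomogeneous d ↔ ∀ m, coeff m g ≠ 0 → ∑ i, m i = d := by
  rw [isHomogeneous_iff_support]
  exact forall_congr' fun m => by rw [MvPolynomial.mem_support_iff]

theorem pjc_mul {a : MvPolynomial (Fin n) K} {α : ℕ} (ha : a.IsHomogeneous α) (e j : ℕ)
    (v : MvPolynomial (Fin n) K) : pjc e j (a * v) = a * pjc (e + α) j v := by
  classical
  ext m
  rw [coeff_pjc, coeff_mul, coeff_mul]
  have key : ∀ x ∈ Finset.HasAntidiagonal.antidiagonal m, coeff x.1 a * coeff x.2 (pjc (e + α) j v) =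
      if ∑ i, m i + e = j then coeff x.1 a * coeff x.2 v else 0 := by
    intro x hx
    rw [coeff_pjc]
    by_cases h0 : coeff x.1 a = 0
    · rw [h0]
      simp
    · have h1 := hom_iff.1 ha _ h0
      have h2 : ∑ i, m i = ∑ i, x.1 i + ∑ i, x.2 i := by
        rw [← Finset.HasAntidiagonal.mem_antidiagonal.1 hx, sum_add']
      by_cases h3 : ∑ i, m i + e = j
      · rw [if_pos h3, if_pos (by omega)]
      · rw [if_neg h3, if_neg (by omega), mul_zero]
  rw [Finset.sum_congr rfl key]
  split_ifs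
  · rfl
  · simp

variable {r r' : ℕ}

/-- the part of degree `j - p` of the free module with basis in the degrees `δ` -/
def Wf (K : Type*) [Field K] (n : ℕ) {r : ℕ} (δ : Fin r → ℕ) (j p : ℕ) :
    Submodule K (Fin r → MvPolynomial (Fin n) K) where
  carrier := {v | ∀ i m, coeff m (v i) ≠ 0 → ∑ k, m k + δ i + p = j}
  add_mem' := by
    intro a b ha hb i m hm
    by_contra h
    apply hm
    have h1 : coeff m (a i) = 0 := by
      by_contra h'
      exact h (ha i m h')
    have h2 : coeff m (b i) = 0 := by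
      by_contra h'
      exact h (hb i m h')
    rw [Pi.add_apply, coeff_add, h1, h2, add_zero]
  zero_mem' := fun i m hm => absurd (coeff_zero m) hm
  smul_mem' := by
    intro k a ha i m hm
    refine ha i m fun h => hm ?_
    rw [Pi.smul_apply, coeff_smul, h, smul_zero]

theorem mem_Wf {δ : Fin r → ℕ} {j p : ℕ} {v : Fin r → MvPolynomial (Fin n) K} :
    v ∈ Wf K n δ j p ↔ ∀ i m, coeff m (v i) ≠ 0 → ∑ k, m k + δ i + p = j := Iff.rfl

theorem finite_Wf (δ : Fin r → ℕ) (j p : ℕ) : Module.Finite K (Wf K n δ j p) := by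
  have h1 : (Submodule.pi Set.univ fun _ : Fin r => restrictTotalDegree (Fin n) K j).FG :=
    Submodule.fg_pi fun _ => Module.Finite.iff_fg.1 inferInstance
  have h2 := Module.Finite.iff_fg.2 h1
  refine Submodule.finiteDimensional_of_le
    (S₂ := Submodule.pi Set.univ fun _ : Fin r => restrictTotalDegree (Fin n) K j) ?_
  intro v hv i _
  rw [SetLike.mem_coe, mem_restrictTotalDegree, totalDegree, Finset.sup_le_iff]
  intro m hm
  have h3 := hv i m (MvPolynomial.mem_support_iff.1 hm)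
  rw [Finsupp.sum_fintype _ _ (fun _ => rfl)]
  omega

/-- the variables, acting on a free module -/
noncomputable def xf (K : Type*) [Field K] (n r : ℕ) : Fin n → Fin r → MvPolynomial (Fin n) K :=
  fun i _ => X i

theorem coeff_X_mul_ne {i : Fin n} {g : MvPolynomial (Fin n) K} {m : Fin n →₀ ℕ}
    (h : coeff m (X i * g) ≠ 0) :
    ∃ m', coeff m' g ≠ 0 ∧ m = m' + Finsupp.single i 1 := by
  classical
  rw [coeff_X_mul'] at h
  split_ifs at h with hi
  · refine ⟨_, h, ?_⟩
    rw [tsub_add_cancel_of_le]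
    rw [Finsupp.single_le_iff]
    exact Nat.pos_of_ne_zero (Finsupp.mem_support_iff.1 hi)
  · exact absurd rfl h

theorem Wf_closed (δ : Fin r → ℕ) (j p : ℕ) (i : Fin n) :
    ∀ v ∈ Wf K n δ j (p + 1), xf K n r i * v ∈ Wf K n δ j p := by
  intro v hv k m hm
  obtain ⟨m', h1, rfl⟩ := coeff_X_mul_ne (i := i) (g := v k) hm
  have h2 := hv k m' h1
  rw [sum_add', sum_single']
  omega

theorem kd_xf (c : Finset (Fin n) → Fin r → MvPolynomial (Fin n) K) (t : Finset (Fin n))
    (i : Fin r) : kd (xf K n r) c t i = kd X (fun s => c s i) t :=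
  kd_map (Pi.evalRingHom (fun _ : Fin r => MvPolynomial (Fin n) K) i) (xf K n r) c t

theorem free_exact (δ : Fin r → ℕ) (j p : ℕ) {z : Finset (Fin n) → Fin r → MvPolynomial (Fin n) K}
    (hz : z ∈ cyc (xf K n r) (Wf K n δ j) p) (h0 : ∀ i, coeff 0 (z ∅ i) = 0) :
    z ∈ bdy (xf K n r) (Wf K n δ j) p := by
  have hk : kd (xf K n r) z = 0 := hz.2
  have key := fun i : Fin r => exactT (K := K) (δ i) j p Finset.univ (fun s => z s i)
    (fun s hs => by rw [hz.1.1 s hs]; rfl) (fun s m hm => hz.1.2 s i m hm)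
    (by
      funext t
      rw [← kd_xf, hk]
      rfl) (h0 i) (fun s m _ k hk => absurd (Finset.mem_univ k) hk)
  choose w hw0 hw1 hw2 using key
  refine ⟨fun s i => w i s, ⟨fun s hs => funext fun i => hw0 i s hs, fun s i m hm => hw1 i s m hm⟩,
    ?_⟩
  funext t i
  rw [kdL_apply, kd_xf]
  exact congrFun (hw2 i) t

theorem free_exact_succ (δ : Fin r → ℕ) (j p : ℕ) :
    cyc (xf K n r) (Wf K n δ j) (p + 1) ≤ bdy (xf K n r) (Wf K n δ j) (p + 1) := by
  intro z hz
  refine free_exact δ j (p + 1) hz fun i => ?_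
  rw [hz.1.1 ∅ (by simp)]
  rfl

theorem free_exact_zero (δ : Fin r → ℕ) (j : ℕ) {U : Submodule K (Fin r → MvPolynomial (Fin n) K)}
    (hU : ∀ v ∈ Wf K n δ j 0 ⊓ U, ∀ i, coeff 0 (v i) = 0) :
    chW n 0 (Wf K n δ j 0 ⊓ U) ≤ bdy (xf K n r) (Wf K n δ j) 0 := by
  intro z hz
  refine free_exact δ j 0 ?_ fun i => hU _ (hz.2 ∅) i
  rw [cyc_zero]
  exact ⟨hz.1, fun s => (hz.2 s).1⟩

theorem coeff_zero_kd (c : Finset (Fin n) → MvPolynomial (Fin n) K) (t : Finset (Fin n)) :
    coeff 0 (kd X c t) = 0 := by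
  rw [← constantCoeff_eq, kd_apply, map_sum]
  refine Finset.sum_eq_zero fun i _ => ?_
  rw [map_mul, map_mul, constantCoeff_X, zero_mul, mul_zero]

theorem hb_free (δ : Fin r → ℕ) (j : ℕ) :
    hb (xf K n r) (Wf K n δ j) 0 = (Finset.univ.filter fun i => δ i = j).card := by
  classical
  haveI := finite_Wf (K := K) (n := n) δ j 0
  let κ : (Finset (Fin n) → Fin r → MvPolynomial (Fin n) K) →ₗ[K] ({i // δ i = j} → K) :=
    { toFun := fun c i => coeff 0 (c ∅ i.1)
      map_add' := fun a b => by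
        funext i
        simp
      map_smul' := fun k a => by
        funext i
        simp }
  have hκ : ∀ c i, κ c i = coeff 0 (c ∅ i.1) := fun _ _ => rfl
  have h1 := finrank_map_add κ (chW n 0 (Wf K n δ j 0))
  have h2 : (chW n 0 (Wf K n δ j 0)).map κ = ⊤ := by
    rw [eq_top_iff]
    intro u _
    refine ⟨fun s i => if s = ∅ then (if h : δ i = j then C (u ⟨i, h⟩) else 0) else 0,
      ⟨fun s hs => ?_, fun s i m hm => ?_⟩, ?_⟩
    · funext i
      exact if_neg (fun h => hs (by rw [h]; rfl))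
    · dsimp only at hm
      split_ifs at hm with h3 h4
      · rw [coeff_C] at hm
        split_ifs at hm with h5
        · rw [← h5]
          simpa using h4
        · exact absurd rfl hm
      · exact absurd (coeff_zero m) hm
      · exact absurd (coeff_zero m) hm
    · funext i
      rw [hκ, if_pos rfl, dif_pos i.2, coeff_zero_C]
  have h3 : chW n 0 (Wf K n δ j 0) ⊓ LinearMap.ker κ = bdy (xf K n r) (Wf K n δ j) 0 := by
    apply le_antisymm
    · rintro z ⟨hz, hz'⟩
      refine free_exact δ j 0 (by rw [cyc_zero]; exact hz) fun i => ?_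
      by_cases h : δ i = j
      · exact congrFun (LinearMap.mem_ker.1 hz') ⟨i, h⟩
      · by_contra h4
        have h5 := hz.2 ∅ i 0 h4
        simp at h5
        exact h h5
    · intro z hz
      refine ⟨?_, ?_⟩
      · rw [← cyc_zero (xf K n r)]
        exact bdy_le_cyc (Wf_closed δ j) 0 hz
      · obtain ⟨c, -, rfl⟩ := hz
        rw [SetLike.mem_coe, LinearMap.mem_ker]
        funext i
        rw [hκ, kdL_apply, kd_xf, coeff_zero_kd]
        rfl
  rw [h2, h3, finrank_top, Module.finrank_fintype_fun_eq_card, Fintype.card_subtype] at h1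
  unfold hb
  rw [cyc_zero]
  omega

/-- the entries of a minimal graded map -/
def MinMat (δ : Fin r → ℕ) (δ' : Fin r' → ℕ)
    (A : Matrix (Fin r) (Fin r') (MvPolynomial (Fin n) K)) : Prop :=
  ∀ i k, A i k = 0 ∨ δ i < δ' k ∧ (A i k).IsHomogeneous (δ' k - δ i)

/-- the projection of a vector -/
noncomputable def pjv (δ : Fin r → ℕ) (j p : ℕ) (v : Fin r → MvPolynomial (Fin n) K) :
    Fin r → MvPolynomial (Fin n) K := fun i => pjc (δ i + p) j (v i)

theorem pjv_mem (δ : Fin r → ℕ) (j p : ℕ) (v : Fin r → MvPolynomial (Fin n) K) :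
    pjv δ j p v ∈ Wf K n δ j p := by
  intro i m hm
  unfold pjv at hm
  rw [coeff_pjc] at hm
  split_ifs at hm with h
  · omega
  · exact absurd rfl hm

theorem pjv_self {δ : Fin r → ℕ} {j p : ℕ} {v : Fin r → MvPolynomial (Fin n) K}
    (hv : v ∈ Wf K n δ j p) : pjv δ j p v = v := by
  funext i
  exact pjc_self fun m hm => by
    have := hv i m hm
    omega

/-- graded matrices commute with the projections -/
theorem mulVec_pjv {δ : Fin r → ℕ} {δ' : Fin r' → ℕ}
    {A : Matrix (Fin r) (Fin r') (MvPolynomial (Fin n) K)}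
    (hA : ∀ i k, A i k = 0 ∨ δ i ≤ δ' k ∧ (A i k).IsHomogeneous (δ' k - δ i)) (j p : ℕ)
    (v : Fin r' → MvPolynomial (Fin n) K) :
    A.mulVec (pjv δ' j p v) = pjv δ j p (A.mulVec v) := by
  funext i
  unfold pjv
  rw [Matrix.mulVec, Matrix.mulVec, dotProduct, dotProduct, pjc_sum]
  refine Finset.sum_congr rfl fun k _ => ?_
  rcases hA i k with h | ⟨h1, h2⟩
  · rw [h, zero_mul, zero_mul, pjc_self fun m hm => absurd (coeff_zero m) hm]
  · rw [pjc_mul h2, show δ i + p + (δ' k - δ i) = δ' k + p by omega]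

theorem MinMat.le {δ : Fin r → ℕ} {δ' : Fin r' → ℕ}
    {A : Matrix (Fin r) (Fin r') (MvPolynomial (Fin n) K)} (hA : MinMat δ δ' A) :
    ∀ i k, A i k = 0 ∨ δ i ≤ δ' k ∧ (A i k).IsHomogeneous (δ' k - δ i) := fun i k =>
  (hA i k).imp_right fun h => ⟨h.1.le, h.2⟩

theorem MinMat.const {δ : Fin r → ℕ} {δ' : Fin r' → ℕ}
    {A : Matrix (Fin r) (Fin r') (MvPolynomial (Fin n) K)} (hA : MinMat δ δ' A) (i : Fin r)
    (k : Fin r') : coeff 0 (A i k) = 0 := by
  rcases hA i k with h | ⟨h1, h2⟩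
  · rw [h, coeff_zero]
  · by_contra h
    have h3 := hom_iff.1 h2 0 h
    simp at h3
    omega

theorem MinMat.const_mulVec {δ : Fin r → ℕ} {δ' : Fin r' → ℕ}
    {A : Matrix (Fin r) (Fin r') (MvPolynomial (Fin n) K)} (hA : MinMat δ δ' A)
    (v : Fin r' → MvPolynomial (Fin n) K) (i : Fin r) : coeff 0 (A.mulVec v i) = 0 := by
  rw [← constantCoeff_eq, Matrix.mulVec, dotProduct, map_sum]
  refine Finset.sum_eq_zero fun k _ => ?_
  rw [map_mul, constantCoeff_eq, hA.const, zero_mul]

/-- a matrix as a `K`-linear map -/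
noncomputable def mK (A : Matrix (Fin r) (Fin r') (MvPolynomial (Fin n) K)) :
    (Fin r' → MvPolynomial (Fin n) K) →ₗ[K] (Fin r → MvPolynomial (Fin n) K) :=
  A.mulVecLin.restrictScalars K

theorem mK_apply (A : Matrix (Fin r) (Fin r') (MvPolynomial (Fin n) K))
    (v : Fin r' → MvPolynomial (Fin n) K) : mK A v = A.mulVec v := rfl

theorem mK_xf (A : Matrix (Fin r) (Fin r') (MvPolynomial (Fin n) K)) (i : Fin n)
    (v : Fin r' → MvPolynomial (Fin n) K) : mK A (xf K n r' i * v) = xf K n r i * mK A v :=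
  Matrix.mulVec_smul A (X i : MvPolynomial (Fin n) K) v

theorem map_mK {δ : Fin r → ℕ} {δ' : Fin r' → ℕ}
    {A : Matrix (Fin r) (Fin r') (MvPolynomial (Fin n) K)} (hA : MinMat δ δ' A) (j p : ℕ) :
    (Wf K n δ' j p).map (mK A) = Wf K n δ j p ⊓ LinearMap.range (mK A) := by
  apply le_antisymm
  · rintro _ ⟨v, hv, rfl⟩
    refine ⟨?_, v, rfl⟩
    rw [← pjv_self hv, mK_apply, mulVec_pjv hA.le]
    exact pjv_mem _ _ _ _
  · rintro _ ⟨hu, v, rfl⟩
    refine ⟨pjv δ' j p v, pjv_mem _ _ _ _, ?_⟩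
    rw [mK_apply, mulVec_pjv hA.le]
    exact pjv_self hu

/-- the augmentation -/
noncomputable def aug (I : Ideal (MvPolynomial (Fin n) K)) (r : ℕ) :
    (Fin r → MvPolynomial (Fin n) K) →ₗ[K] MvPolynomial (Fin n) K ⧸ I where
  toFun v := Ideal.Quotient.mk I (∑ i, v i)
  map_add' a b := by
    simp only [Pi.add_apply, Finset.sum_add_distrib, map_add]
  map_smul' k a := by
    simp only [Pi.smul_apply, RingHom.id_apply]
    rw [← Finset.smul_sum]
    rfl

theorem aug_apply (I : Ideal (MvPolynomial (Fin n) K)) (v : Fin r → MvPolynomial (Fin n) K) :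
    aug I r v = Ideal.Quotient.mk I (∑ i, v i) := rfl

theorem aug_xf (I : Ideal (MvPolynomial (Fin n) K)) (i : Fin n)
    (v : Fin r → MvPolynomial (Fin n) K) :
    aug I r (xf K n r i * v) = Ideal.Quotient.mk I (X i) * aug I r v := by
  rw [aug_apply, aug_apply, ← map_mul, Finset.mul_sum]
  rfl

theorem map_aug {I : Ideal (MvPolynomial (Fin n) K)} (hI : HomIdeal I) {δ : Fin r → ℕ}
    (hδ : ∀ i, δ i = 0) (hs : Function.Surjective (aug I r)) (j p : ℕ) :
    (Wf K n δ j p).map (aug I r) = entry I p j := by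
  have hpj : ∀ v : Fin r → MvPolynomial (Fin n) K,
      ∑ i, pjv δ j p v i = pjc p j (∑ i, v i) := by
    intro v
    rw [pjc_sum]
    refine Finset.sum_congr rfl fun i _ => ?_
    unfold pjv
    rw [hδ, zero_add]
  apply le_antisymm
  · rintro _ ⟨v, hv, rfl⟩
    rw [← pjv_self hv, aug_apply, hpj, pjc, entry]
    split_ifs
    · exact mem_quotPiece.2 ⟨_, homogeneousComponent_isHomogeneous _ _, rfl⟩
    · rw [map_zero]
      exact Submodule.zero_mem _
  · intro y hy
    rw [entry] at hy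
    split_ifs at hy with h
    · obtain ⟨u, hu, rfl⟩ := mem_quotPiece.1 hy
      obtain ⟨v, hv⟩ := hs (Ideal.Quotient.mk I u)
      refine ⟨pjv δ j p v, pjv_mem _ _ _ _, ?_⟩
      rw [aug_apply, Ideal.Quotient.eq] at hv ⊢
      have h1 := pjc_mem hI p j hv
      rw [pjc_sub, pjc_self (g := u) fun m hm => by
        have := hom_iff.1 hu m hm
        omega] at h1
      rwa [hpj]
    · rw [Submodule.mem_bot] at hy
      rw [hy]
      exact Submodule.zero_mem _

theorem betti_eq_hb (I : Ideal (MvPolynomial (Fin n) K)) (p j : ℕ) :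
    betti I p j = hb (fun i => Ideal.Quotient.mk I (X i)) (fun p => entry I p j) p := by
  have h1 := betti_add I p j
  have h2 : koszulD I = kdL K (fun i => Ideal.Quotient.mk I (X i)) :=
    LinearMap.ext fun c => koszulD_eq_kd I c
  have h3 : ∀ p, koszulChain I p j = chW n p (entry I p j) := fun p => rfl
  rw [h2, h3, h3] at h1
  unfold hb cyc bdy
  beta_reduce
  omega

/-- **the Koszul Betti numbers count the basis elements of a minimal resolution** -/
theorem betti_eq_card {I : Ideal (MvPolynomial (Fin n) K)} (hI : HomIdeal I) {r : ℕ → ℕ}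
    {δ : ∀ p, Fin (r p) → ℕ}
    {A : ∀ p, Matrix (Fin (r p)) (Fin (r (p + 1))) (MvPolynomial (Fin n) K)}
    (h : IsMinRes I r δ A) (p j : ℕ) :
    betti I p j = (Finset.univ.filter fun i => δ p i = j).card := by
  obtain ⟨h0, hs, he0, he, hm⟩ := h
  have hm' : ∀ q, MinMat (δ q) (δ (q + 1)) (A q) := hm
  have hker : ∀ q, LinearMap.ker (mK (A q)) = LinearMap.range (mK (A (q + 1))) := by
    intro q
    ext v
    exact he q v
  have hker0 : LinearMap.ker (aug I (r 0)) = LinearMap.range (mK (A 0)) := by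
    ext v
    exact he0 v
  have hz : ∀ q, chW n 0 (Wf K n (δ q) j 0 ⊓ LinearMap.range (mK (A q))) ≤
      bdy (xf K n (r q)) (Wf K n (δ q) j) 0 := by
    intro q
    refine free_exact_zero _ _ ?_
    rintro _ ⟨-, v, rfl⟩ i
    exact (hm' q).const_mulVec v i
  have key : ∀ p q, hb (xf K n (r q)) (fun p => Wf K n (δ q) j p ⊓ LinearMap.range (mK (A q))) p =
      (Finset.univ.filter fun i => δ (q + p + 1) i = j).card := by
    intro p
    induction p with
    | zero =>
      intro q
      haveI := finite_Wf (K := K) (n := n) (δ (q + 1)) j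
      have h1 := (shift (mK (A q)) (mK_xf (A q)) (Wf K n (δ (q + 1)) j) (Wf_closed _ j)
        (free_exact_succ _ j) (by rw [hker]; exact hz (q + 1))).2
      simp only [map_mK (hm' q)] at h1
      rw [h1, hb_free]
    | succ p ih =>
      intro q
      haveI := finite_Wf (K := K) (n := n) (δ (q + 1)) j
      have h1 := (shift (mK (A q)) (mK_xf (A q)) (Wf K n (δ (q + 1)) j) (Wf_closed _ j)
        (free_exact_succ _ j) (by rw [hker]; exact hz (q + 1))).1 p
      simp only [map_mK (hm' q), hker] at h1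
      rw [h1, ih (q + 1), show q + 1 + p + 1 = q + (p + 1) + 1 by omega]
  haveI := finite_Wf (K := K) (n := n) (δ 0) j
  have h1 := shift (aug I (r 0)) (aug_xf I) (Wf K n (δ 0) j) (Wf_closed _ j)
    (free_exact_succ _ j) (by rw [hker0]; exact hz 0)
  simp only [map_aug hI h0 hs, hker0] at h1
  rw [betti_eq_hb]
  cases p with
  | zero => rw [h1.2, hb_free]
  | succ p => rw [h1.1 p, key p 0, zero_add]

end Vale.Agent.N200
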