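import Vale.Agent.N200.Res

set_option linter.all false

namespace Vale.Agent.N200

open CategoryTheory CategoryTheory.MonoidalCategory Module TensorProduct

universe u

section tor

variable {S : Type u} [CommRing S] {M : Type u} [AddCommGroup M] [Module S M] {r : ℕ → ℕ}
  (A : ∀ p, Matrix (Fin (r p)) (Fin (r (p + 1))) S)
  (he : ∀ p, Function.Exact (A (p + 1)).mulVec (A p).mulVec)

/-- the complex of a sequence of matrices -/
noncomputable def cx : ChainComplex (ModuleCat.{u} S) ℕ :=
  ChainComplex.of (fun p => ModuleCat.of S (Fin (r p) → S))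
    (fun p => ModuleCat.ofHom (A p).mulVecLin) (fun p => by
      ext1
      refine LinearMap.ext fun v => ?_
      exact (he p).apply_apply_eq_zero v)

theorem cx_d (p : ℕ) : (cx A he).d (p + 1) p = ModuleCat.ofHom (A p).mulVecLin :=
  ChainComplex.of_d (fun p => ModuleCat.of S (Fin (r p) → S))
    (fun p => ModuleCat.ofHom (A p).mulVecLin) p

variable (ε : (Fin (r 0) → S) →ₗ[S] M) (hs : Function.Surjective ε)
  (he0 : Function.Exact (A 0).mulVec ε)

/-- the augmentation as a map of complexes -/
noncomputable def cxπ : cx A he ⟶ (ChainComplex.single₀ (ModuleCat.{u} S)).obj (ModuleCat.of S M) :=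
  ((cx A he).toSingle₀Equiv _).symm ⟨ModuleCat.ofHom ε, by
    rw [cx_d A he 0]
    ext1
    refine LinearMap.ext fun v => ?_
    exact he0.apply_apply_eq_zero v⟩

include hs in
theorem cxπ_quasi : QuasiIso (cxπ A he ε he0) where
  quasiIsoAt m := by
    have h0 : (cxπ A he ε he0).f 0 = ModuleCat.ofHom ε :=
      ChainComplex.toSingle₀Equiv_symm_apply_f_zero _ _
    cases m with
    | zero =>
      rw [ChainComplex.quasiIsoAt₀_iff, ShortComplex.quasiIso_iff_of_zeros' _ rfl rfl rfl]
      constructor
      · rw [ShortComplex.moduleCat_exact_iff]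
        intro x hx
        have h1 : ((cxπ A he ε he0).f 0).hom x = 0 := hx
        rw [h0] at h1
        obtain ⟨y, hy⟩ := (he0 x).1 h1
        refine ⟨y, ?_⟩
        have h2 : ((cx A he).d (0 + 1) 0).hom y = x := by
          rw [cx_d]
          exact hy
        exact h2
      · have h1 : Epi ((cxπ A he ε he0).f 0) := by
          rw [h0]
          exact (ModuleCat.epi_iff_surjective _).2 hs
        exact h1
    | succ m =>
      rw [quasiIsoAt_iff_exactAt' (hL := ChainComplex.exactAt_succ_single_obj ..),
        HomologicalComplex.exactAt_iff' _ (m + 2) (m + 1) m (by simp) (by simp),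
        ShortComplex.moduleCat_exact_iff]
      intro x hx
      have h1 : ((cx A he).d (m + 1) m).hom x = 0 := hx
      rw [cx_d] at h1
      obtain ⟨y, hy⟩ := (he m x).1 h1
      refine ⟨y, ?_⟩
      have h2 : ((cx A he).d (m + 1 + 1) (m + 1)).hom y = x := by
        rw [cx_d]
        exact hy
      exact h2

/-- the projective resolution -/
noncomputable def cxRes : ProjectiveResolution (ModuleCat.of S M) where
  complex := cx A he
  projective p := (inferInstance : Projective (ModuleCat.of S (Fin (r p) → S)))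
  π := cxπ A he ε he0
  quasiIso := cxπ_quasi A he ε hs he0

include he hs he0 in
/-- `Tor` of a minimal resolution -/
theorem tor_equiv (m : Ideal S) (hm : ∀ p i k, A p i k ∈ m) (p : ℕ) :
    Nonempty ((((Tor' (ModuleCat.{u} S) p).obj (ModuleCat.of S M)).obj
      (ModuleCat.of S (S ⧸ m))) ≃ₗ[S] (Fin (r p) → S ⧸ m)) := by
  set F := (tensoringRight (ModuleCat.{u} S)).obj (ModuleCat.of S (S ⧸ m)) with hF
  have e1 := (cxRes A he ε hs he0).isoLeftDerivedObj F p
  set C := (F.mapHomologicalComplex (ComplexShape.down ℕ)).obj (cx A he) with hC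
  have hd : ∀ i j, C.d i j = 0 := by
    intro i j
    by_cases hij : (ComplexShape.down ℕ).Rel i j
    · obtain rfl : j + 1 = i := hij
      have h1 : C.d (j + 1) j = (cx A he).d (j + 1) j ▷ ModuleCat.of S (S ⧸ m) := rfl
      rw [h1, cx_d]
      ext1
      have h2 : (A j).mulVecLin.rTensor (S ⧸ m) = 0 := by
        refine TensorProduct.ext' fun v y => ?_
        rw [LinearMap.rTensor_tmul, LinearMap.zero_apply, pi_eq_sum_univ ((A j).mulVecLin v),
          TensorProduct.sum_tmul]
        refine Finset.sum_eq_zero fun i _ => ?_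
        rw [TensorProduct.smul_tmul]
        have h3 : (A j).mulVecLin v i ∈ m := by
          rw [Matrix.mulVecLin_apply, Matrix.mulVec, dotProduct]
          exact Ideal.sum_mem _ fun k _ => Ideal.mul_mem_right _ _ (hm j i k)
        have h4 : (A j).mulVecLin v i • y = 0 := by
          obtain ⟨y, rfl⟩ := Ideal.Quotient.mk_surjective y
          rw [Algebra.smul_def, Ideal.Quotient.algebraMap_eq, Ideal.Quotient.eq_zero_iff_mem.2 h3,
            zero_mul]
        rw [h4, TensorProduct.tmul_zero]
      exact h2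
    · exact C.shape i j hij
  have e2 : C.homology p ≅ C.X p :=
    (C.isoHomologyπ _ p rfl (hd _ _)).symm ≪≫ C.iCyclesIso p _ rfl (hd _ _)
  have e3 : (((Tor' (ModuleCat.{u} S) p).obj (ModuleCat.of S M)).obj
      (ModuleCat.of S (S ⧸ m))) ≅ C.X p := e1 ≪≫ e2
  have e4 : C.X p ≃ₗ[S] (Fin (r p) → S ⧸ m) :=
    (TensorProduct.comm S (Fin (r p) → S) (S ⧸ m)).trans
      (TensorProduct.piScalarRight S S (S ⧸ m) (Fin (r p)))
  exact ⟨e3.toLinearEquiv.trans e4⟩

end tor

open MvPolynomial Vale.Agent.P200F Vale.Agent.P200F.G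

variable {K : Type u} [Field K] {n : ℕ}

theorem finrank_residue :
    finrank K (MvPolynomial (Fin n) K ⧸
      Ideal.span (Set.range (X : Fin n → MvPolynomial (Fin n) K))) = 1 := by
  have h1 : Ideal.span (Set.range (X : Fin n → MvPolynomial (Fin n) K)) =
      RingHom.ker (aeval (fun _ : Fin n => (0 : K)) : MvPolynomial (Fin n) K →ₐ[K] K) := by
    ext g
    rw [RingHom.mem_ker]
    have h2 : (aeval (fun _ : Fin n => (0 : K)) : MvPolynomial (Fin n) K →ₐ[K] K) g =
        constantCoeff g := by
      rw [aeval_zero']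
      rfl
    rw [h2]
    exact mem_irr_iff
  have h3 : Function.Surjective
      (aeval (fun _ : Fin n => (0 : K)) : MvPolynomial (Fin n) K →ₐ[K] K) := fun k =>
    ⟨C k, by simp⟩
  have e := (Ideal.quotientEquivAlgOfEq K h1).trans (Ideal.quotientKerAlgEquivOfSurjective h3)
  rw [e.toLinearEquiv.finrank_eq, finrank_self]

/-- **the ranks of a minimal resolution are the dimensions of `Tor`** -/
theorem finrank_tor {I : Ideal (MvPolynomial (Fin n) K)} {r : ℕ → ℕ}
    {δ : ∀ p, Fin (r p) → ℕ}
    {A : ∀ p, Matrix (Fin (r p)) (Fin (r (p + 1))) (MvPolynomial (Fin n) K)}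
    (h : IsMinRes I r δ A) (p : ℕ) :
    finrank K (RestrictScalars K (MvPolynomial (Fin n) K)
      (((Tor' (ModuleCat (MvPolynomial (Fin n) K)) p).obj
        (ModuleCat.of _ (MvPolynomial (Fin n) K ⧸ I))).obj
        (ModuleCat.of _ (MvPolynomial (Fin n) K ⧸
          Ideal.span (Set.range (X : Fin n → MvPolynomial (Fin n) K)))))) = r p := by
  obtain ⟨h0, hs, he0, he, hm⟩ := h
  have hm' : ∀ q, MinMat (δ q) (δ (q + 1)) (A q) := hm
  let ε : (Fin (r 0) → MvPolynomial (Fin n) K) →ₗ[MvPolynomial (Fin n) K]
      MvPolynomial (Fin n) K ⧸ I :=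
    { toFun := fun v => Ideal.Quotient.mk I (∑ i, v i)
      map_add' := fun a b => by
        simp only [Pi.add_apply, Finset.sum_add_distrib, map_add]
      map_smul' := fun k a => by
        simp only [Pi.smul_apply, RingHom.id_apply]
        rw [← Finset.smul_sum]
        rfl }
  obtain ⟨e⟩ := tor_equiv A he ε hs he0 (Ideal.span (Set.range X))
    (fun q i k => mem_irr_iff.2 ((hm' q).const i k)) p
  let e' : RestrictScalars K (MvPolynomial (Fin n) K)
      (((Tor' (ModuleCat (MvPolynomial (Fin n) K)) p).obj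
        (ModuleCat.of _ (MvPolynomial (Fin n) K ⧸ I))).obj
        (ModuleCat.of _ (MvPolynomial (Fin n) K ⧸
          Ideal.span (Set.range (X : Fin n → MvPolynomial (Fin n) K))))) ≃ₗ[K]
      (Fin (r p) → MvPolynomial (Fin n) K ⧸
        Ideal.span (Set.range (X : Fin n → MvPolynomial (Fin n) K))) :=
    { (RestrictScalars.addEquiv K (MvPolynomial (Fin n) K) _).trans e.toAddEquiv with
      map_smul' := fun k x => by
        have h1 := e.map_smul (algebraMap K (MvPolynomial (Fin n) K) k)
          (RestrictScalars.addEquiv K (MvPolynomial (Fin n) K) _ x)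
        rw [algebraMap_smul (MvPolynomial (Fin n) K) k (e _)] at h1
        exact h1 }
  haveI : Module.Finite K (MvPolynomial (Fin n) K ⧸
      Ideal.span (Set.range (X : Fin n → MvPolynomial (Fin n) K))) :=
    Module.finite_of_finrank_pos (by rw [finrank_residue]; exact Nat.one_pos)
  rw [e'.finrank_eq, Module.finrank_pi_fintype, Finset.sum_const, Finset.card_univ,
    Fintype.card_fin, finrank_residue, smul_eq_mul, mul_one]

end Vale.Agent.N200
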